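import Vale.Agent.P215Z.Coh.Out

/-!
# P215, cohomology of lattice complexes: the columns
-/

noncomputable section
namespace Vale.Agent.P215Z.Coh
open MvPolynomial Fm

namespace Cols

theorem mem_col {N : ℕ} {l : Lg} {h : ℤ} {p : Pt} : p ∈ Box (cLo N l h) (cHi N l h) ↔
    (∀ j, j ≠ 3 → 2 * (N * org l j) ≤ p j ∧ p j ≤ 2 * (N * (org l + 3) j)) ∧ p 3 = h := by
  constructor
  · intro H
    refine ⟨fun j hj => ?_, ?_⟩
    · have h1 := H j
      simp only [cLo, cHi, Function.update_of_ne hj] at h1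
      simp only [Pi.add_apply, Pi.ofNat_apply]
      constructor <;> linarith [h1.1, h1.2]
    · have h1 := H 3
      simp only [cLo, cHi, Function.update_self] at h1
      omega
  · rintro ⟨H, h3⟩ j
    by_cases hj : j = 3
    · subst hj
      simp only [cLo, cHi, Function.update_self]
      omega
    · have h1 := H j hj
      simp only [Pi.add_apply, Pi.ofNat_apply] at h1
      simp only [cLo, cHi, Function.update_of_ne hj]
      constructor <;> linarith [h1.1, h1.2]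

theorem mem_box {N : ℕ} {h : ℤ} {p : Pt} : p ∈ Box (lo3 h) (hi3 N h) ↔
    (∀ j, j ≠ 3 → 2 * (N * (0 : Pt) j) ≤ p j ∧ p j ≤ 2 * (N * boxHi j)) ∧ p 3 = h := by
  simp only [Box, Set.mem_ofPred_eq, Fin.forall_fin_succ, lo3, hi3, boxHi]
  simp
  omega

theorem adj_le {N : ℕ} {a b p q : Pt} (hq : InBox N a b q)
    (hp : ∀ j, j ≠ 3 → |p j - cell q j| ≤ 1) (j : Fin 4) (hj : j ≠ 3) :
    2 * (N * a j) ≤ p j ∧ p j ≤ 2 * (N * b j) := by
  have h1 := hq j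
  have h2 := abs_le.mp (hp j hj)
  simp only [cell] at h2
  omega

theorem exists_out {N : ℕ} {a b p : Pt} {j : Fin 4} (hj : j ≠ 3)
    (h : p j = 2 * (N * a j) ∨ p j = 2 * (N * b j)) :
    ∃ q : Pt, ¬InBox N a b q ∧ q 3 = 0 ∧ ∀ i, i ≠ 3 → |p i - cell q i| ≤ 1 := by
  refine ⟨fun i => if i = 3 then 0 else if i = j ∧ p j = 2 * (N * a j) then p i / 2 - 1
    else p i / 2, fun H => ?_, if_pos rfl, fun i hi => ?_⟩
  · have h1 := H j
    simp only [if_neg hj, true_and] at h1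
    split_ifs at h1 <;> omega
  · simp only [cell, if_neg hi]
    rw [abs_le]
    split_ifs with h1
    · obtain ⟨rfl, h1⟩ := h1
      omega
    · omega

theorem org_three (l : Lg) : org l 3 = 0 := by
  revert l
  decide

theorem org_bound (l : Lg) (j : Fin 4) : 0 ≤ org l j ∧ org l j + 3 ≤ boxHi j := by
  revert l j
  decide

theorem org_gap (l l' : Lg) (h : l ≠ l') :
    ∃ j : Fin 4, j ≠ 3 ∧ (org l j + 4 ≤ org l' j ∨ org l' j + 4 ≤ org l j) := by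
  revert l l'
  decide

theorem col_subset {N : ℕ} (h : ℤ) (l : Lg) :
    Box (cLo N l h) (cHi N l h) ⊆ Box (lo3 h) (hi3 N h) := by
  intro p hp
  obtain ⟨h1, h3⟩ := mem_col.mp hp
  refine mem_box.mpr ⟨fun j hj => ?_, h3⟩
  have h2 := h1 j hj
  have h4 := mul_le_mul_of_nonneg_left (org_bound l j).1 (Int.natCast_nonneg N)
  have h5 := mul_le_mul_of_nonneg_left (org_bound l j).2 (Int.natCast_nonneg N)
  simp only [Pi.add_apply, Pi.ofNat_apply] at h2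
  simp only [Pi.zero_apply]
  omega

end Cols

open Cols

theorem col_disjoint {N : ℕ} (hN : 0 < N) (h : ℤ) {l l' : Lg} (hl : l ≠ l') :
    Box (cLo N l h) (cHi N l h) ∩ Box (cLo N l' h) (cHi N l' h) = ∅ := by
  refine Set.eq_empty_of_forall_notMem fun p hp => ?_
  obtain ⟨j, hj, h1⟩ := org_gap l l' hl
  have h2 := (mem_col.mp hp.1).1 j hj
  have h3 := (mem_col.mp hp.2).1 j hj
  simp only [Pi.add_apply, Pi.ofNat_apply, mul_add] at h2 h3
  rcases h1 with h1 | h1 <;>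
  · have h4 := mul_le_mul_of_nonneg_left h1 (Int.natCast_nonneg N)
    rw [mul_add] at h4
    omega

theorem Cy_subset_box {N : ℕ} (h : ℤ) : Cy (Uc N) ∩ Lv h ⊆ Box (lo3 h) (hi3 N h) := by
  rintro p ⟨⟨q, hq, -, hp⟩, h3⟩
  exact mem_box.mpr ⟨adj_le hq.1 hp, h3⟩

theorem Cols.cases {N : ℕ} {h : ℤ} {p q : Pt} (hp : p ∈ Box (lo3 h) (hi3 N h)) (h3 : q 3 = 0)
    (ha : ∀ j, j ≠ 3 → |p j - cell q j| ≤ 1) :
    p ∈ Cy (Uc N)ᶜ ∩ Box (lo3 h) (hi3 N h) ∪ Cy (Rc N) ∩ Cy (Bc N) ∩ Lv h ∨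
      ∃ l, q ∈ Qc N l ∧ p ∈ Box (cLo N l h) (cHi N l h) := by
  have hl := (mem_box.mp hp).2
  by_cases hU : q ∈ Uc N
  · by_cases hQ : ∃ l, q ∈ Qc N l
    · obtain ⟨l, hq⟩ := hQ
      exact Or.inr ⟨l, hq, mem_col.mpr ⟨adj_le hq ha, hl⟩⟩
    · exact Or.inl (Or.inr ⟨⟨⟨q, ⟨hU, fun i hi => hQ ⟨_, hi⟩⟩, h3, ha⟩,
        ⟨q, ⟨hU, fun i hi => hQ ⟨_, hi⟩⟩, h3, ha⟩⟩, hl⟩)
  · exact Or.inl (Or.inl ⟨⟨q, hU, h3, ha⟩, hp⟩)

theorem box_eq {N : ℕ} (hN : 0 < N) (h : ℤ) : Box (lo3 h) (hi3 N h) =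
    (Cy (Uc N)ᶜ ∩ Box (lo3 h) (hi3 N h) ∪ Cy (Rc N) ∩ Cy (Bc N) ∩ Lv h) ∪
      ⋃ l : Lg, Box (cLo N l h) (cHi N l h) := by
  have _ := hN
  refine Set.Subset.antisymm (fun p hp => ?_) ?_
  · have ha : ∀ j, j ≠ 3 → |p j - cell (fun i => if i = 3 then 0 else p i / 2) j| ≤ 1 := by
      intro j hj
      simp only [cell, if_neg hj]
      rw [abs_le]
      omega
    rcases Cols.cases hp (if_pos rfl) ha with h1 | ⟨l, -, h1⟩
    · exact Or.inl h1
    · exact Or.inr (Set.mem_iUnion.mpr ⟨l, h1⟩)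
  · rintro p ((hp | ⟨⟨⟨q, hq, h1⟩, -⟩, h3⟩) | hp)
    · exact hp.2
    · exact Cy_subset_box h ⟨⟨q, hq.1, h1⟩, h3⟩
    · obtain ⟨l, hl⟩ := Set.mem_iUnion.mp hp
      exact col_subset h l hl

theorem col_inter {N : ℕ} (hN : 0 < N) (h : ℤ) (l : Lg) :
    (Cy (Uc N)ᶜ ∩ Box (lo3 h) (hi3 N h) ∪ Cy (Rc N) ∩ Cy (Bc N) ∩ Lv h) ∩
      Box (cLo N l h) (cHi N l h) = Bd (cLo N l h) (cHi N l h) := by
  have hc : ∀ j, j ≠ 3 → cLo N l h j = 2 * (N * org l j) ∧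
      cHi N l h j = 2 * (N * (org l + 3) j) := fun j hj => by
    simp only [cLo, cHi, Function.update_of_ne hj, Pi.add_apply, Pi.ofNat_apply, mul_assoc,
      and_self]
  refine Set.Subset.antisymm (fun p hp => ⟨hp.2, ?_⟩) fun p hp => ⟨?_, hp.1⟩
  · by_contra hb
    have hQ : ∀ q : Pt, q 3 = 0 → (∀ j, j ≠ 3 → |p j - cell q j| ≤ 1) → q ∈ Qc N l := by
      intro q h3 ha j
      by_cases hj : j = 3
      · subst hj
        simp only [Pi.add_apply, Pi.ofNat_apply, org_three, h3]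
        omega
      · have h1 := (mem_col.mp hp.2).1 j hj
        have h2 := abs_le.mp (ha j hj)
        have h4 : ¬(p j = 2 * (N * org l j) ∨ p j = 2 * (N * (org l + 3) j)) := fun h4 =>
          hb ⟨j, by
            rw [(hc j hj).1, (hc j hj).2]
            refine ⟨?_, h4⟩
            simp only [Pi.add_apply, Pi.ofNat_apply, mul_add]
            omega⟩
        simp only [cell] at h2
        omega
    rcases hp.1 with ⟨⟨q, hq, h3, ha⟩, -⟩ | ⟨⟨⟨q, hq, h3, ha⟩, ⟨q', hq', h3', ha'⟩⟩, -⟩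
    · exact hq (Qc_subset l (hQ q h3 ha))
    · obtain ⟨i, s⟩ := l
      cases s
      · exact hq'.2 i (hQ q' h3' ha')
      · exact hq.2 i (hQ q h3 ha)
  · obtain ⟨j, h1, h2⟩ := hp.2
    have hj : j ≠ 3 := by
      rintro rfl
      simp only [cLo, cHi, Function.update_self, lt_self_iff_false] at h1
    rw [(hc j hj).1, (hc j hj).2] at h2
    obtain ⟨q, hq, h3, ha⟩ := exists_out hj h2
    rcases Cols.cases (col_subset h l hp.1) h3 ha with h4 | ⟨l', h4, h5⟩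
    · exact h4
    · have hne : l ≠ l' := by
        rintro rfl
        exact hq h4
      exact absurd (Set.mem_inter hp.1 h5) (by rw [col_disjoint hN h hne]; exact id)

theorem bd_subset {N : ℕ} (hN : 0 < N) (h : ℤ) :
    Bd (lo3 h) (hi3 N h) ⊆ Cy (Uc N)ᶜ ∩ Box (lo3 h) (hi3 N h) := by
  have _ := hN
  rintro p ⟨hp, j, h1, h2⟩
  have hj : j ≠ 3 := by
    rintro rfl
    exact lt_irrefl h h1
  have h4 : p j = 2 * (N * (0 : Pt) j) ∨ p j = 2 * (N * boxHi j) := by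
    fin_cases j <;> simp [lo3, hi3, boxHi] at h2 hj ⊢ <;> omega
  obtain ⟨q, hq, h3, ha⟩ := exists_out hj h4
  exact ⟨⟨q, fun hU => hq hU.1, h3, ha⟩, hp⟩

end Vale.Agent.P215Z.Coh
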