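import Vale.Agent.P215Z.Coh.Basic

/-!
# P215, cohomology of lattice complexes: the caves are joined to the outside
-/

noncomputable section
namespace Vale.Agent.P215Z.Coh
open MvPolynomial Fm

variable {O : Type} [CommRing O] [Algebra ℚ O] {K K' K'' L : Set Pt} {n : ℤ} {ω ω' : Form O}

namespace Outx

variable {N : ℕ} {a b q : Pt}

theorem mul_mono (N : ℕ) {x y : ℤ} (h : x ≤ y) : (N : ℤ) * x ≤ N * y :=
  mul_le_mul_of_nonneg_left h (Nat.cast_nonneg N)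

theorem inBox_mono {a' b' : Pt} (h : InBox N a b q) (hs : ∀ j, a' j ≤ a j ∧ b j ≤ b' j) :
    InBox N a' b' q := fun j =>
  ⟨(mul_mono N (hs j).1).trans (h j).1, (h j).2.trans_le (mul_mono N (hs j).2)⟩

theorem not_both {a' b' : Pt} (h : InBox N a b q) (h' : InBox N a' b' q)
    (hs : ∃ j, b j ≤ a' j ∨ b' j ≤ a j) : False := by
  obtain ⟨j, hj | hj⟩ := hs
  · exact ((h j).2.trans_le (mul_mono N hj)).not_ge (h' j).1
  · exact ((h' j).2.trans_le (mul_mono N hj)).not_ge (h j).1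

theorem inBox_mul (hN : 0 < N) {m : Pt} :
    InBox N a b (fun j => N * m j) ↔ ∀ j, a j ≤ m j ∧ m j < b j := by
  have h0 : (0 : ℤ) < N := by exact_mod_cast hN
  exact forall_congr' fun j => and_congr (mul_le_mul_iff_right₀ h0) (mul_lt_mul_iff_right₀ h0)

/-- inside a box of removed cubes one passes from any cube to any other -/
theorem walk (hf : ∀ q, InBox N a b q → q ∉ Uc N) {q' : Pt} (h' : InBox N a b q')
    (ho : Out N q') (n : ℕ) : ∀ q, InBox N a b q → q 3 = q' 3 →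
      ∑ j, (q j - q' j).natAbs < n → Out N q := by
  induction n with
  | zero => exact fun _ _ _ h => absurd h (Nat.not_lt_zero _)
  | succ n ih =>
    intro q h h3 hn
    by_cases he : q = q'
    · rwa [he]
    obtain ⟨k, hk⟩ := Function.ne_iff.1 he
    have hk3 : k ≠ 3 := fun e => hk (e ▸ h3)
    have h1 := fc_self q k (decide (q k < q' k))
    have h2 : InBox N a b (fc q k (decide (q k < q' k))) := fun j => by
      by_cases hj : j = k
      · have := h k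
        have := h' k
        rw [hj, h1]
        split_ifs with h4 <;> simp only [decide_eq_true_eq] at h4 <;> omega
      · rw [fc_ne q hj]
        exact h j
    refine Out.step q k _ hk3 (hf _ h2) (ih _ h2 (by rw [fc_ne q hk3.symm, h3]) ?_)
    refine lt_of_lt_of_le (Finset.sum_lt_sum (fun j _ => ?_) ⟨k, Finset.mem_univ _, ?_⟩)
      (Nat.lt_succ_iff.1 hn)
    · by_cases hj : j = k
      · rw [hj, h1]
        split_ifs with h4 <;> simp only [decide_eq_true_eq] at h4 <;> omega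
      · rw [fc_ne q hj]
    · rw [h1]
      split_ifs with h4 <;> simp only [decide_eq_true_eq] at h4 <;> omega

/-- the cave with a given number -/
def cv (i : ℕ) : Pt × Pt := caves.getD i 0

theorem cv_mem {i : ℕ} (h : i < 14) : cv i ∈ caves := by
  rw [cv, List.getD_eq_getElem _ _ h]
  exact List.getElem_mem _

theorem mem_cv {c : Pt × Pt} (h : c ∈ caves) : ∃ i < 14, cv i = c := by
  obtain ⟨i, hi, rfl⟩ := List.mem_iff_getElem.1 h
  exact ⟨i, hi, List.getD_eq_getElem _ _ hi⟩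

/-- all cubes of the cave leave the box -/
def Ex (N i : ℕ) : Prop := ∀ q, InBox N (cv i).1 (cv i).2 q → q 3 = 0 → Out N q

theorem link (hN : 0 < N) {i i' : ℕ} (h : Ex N i') (m : Pt) (hm : i < 14 ∧ m 3 = 0 ∧
    (∀ j, (cv i).1 j ≤ m j ∧ m j < (cv i).2 j) ∧ ∀ j, (cv i').1 j ≤ m j ∧ m j < (cv i').2 j) :
    Ex N i := fun q h1 h3 => by
  have h4 : (N : ℤ) * m 3 = 0 := by rw [hm.2.1, mul_zero]
  exact walk (fun q hq hu => hu.2 _ (cv_mem hm.1) hq) ((inBox_mul hN).2 hm.2.2.1)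
    (h _ ((inBox_mul hN).2 hm.2.2.2) h4) _ q h1 (h3.trans h4.symm) (Nat.lt_succ_self _)

theorem exit (hN : 0 < N) {i : ℕ} (a b m : Pt) (hm : i < 14 ∧ m 3 = 0 ∧
    (∀ j, a j ≤ m j ∧ m j < b j) ∧ (¬ ∀ j, (0 : Pt) j ≤ m j ∧ m j < boxHi j) ∧
    (∀ j, a j ≤ (cv i).1 j ∧ (cv i).2 j ≤ b j) ∧
    ∀ j, ((cv i).1 j ≤ a j ∨ (cv i).1 j ≤ (0 : Pt) j) ∧
      (b j ≤ (cv i).2 j ∨ boxHi j ≤ (cv i).2 j)) : Ex N i := fun q h1 h3 => by
  obtain ⟨m1, m2, m3, m4, m5, m6⟩ := hm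
  refine walk (fun q hq hu => hu.2 _ (cv_mem m1) fun j => ⟨?_, ?_⟩) ((inBox_mul hN).2 m3)
    (Out.base _ fun h => m4 ((inBox_mul hN).1 h)) _ q (inBox_mono h1 m5)
    (by rw [h3, m2, mul_zero]) (Nat.lt_succ_self _)
  · rcases (m6 j).1 with h | h
    · exact (mul_mono N h).trans (hq j).1
    · exact (mul_mono N h).trans (hu.1 j).1
  · rcases (m6 j).2 with h | h
    · exact (hq j).2.trans_le (mul_mono N h)
    · exact (hu.1 j).2.trans_le (mul_mono N h)

theorem ex_all (hN : 0 < N) {i : ℕ} (h : i < 14) : Ex N i := by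
  have e5 : Ex N 5 := exit hN ![13, 4, 2, 0] ![17, 5, 3, 3] ![16, 4, 2, 0] (by decide)
  have e11 : Ex N 11 := exit hN ![10, 4, -1, 0] ![11, 5, 6, 3] ![10, 4, -1, 0] (by decide)
  have e12 : Ex N 12 := exit hN ![-1, 3, 7, 0] ![9, 6, 14, 3] ![-1, 3, 7, 0] (by decide)
  have e13 : Ex N 13 := exit hN ![12, 3, 7, 0] ![17, 6, 14, 3] ![16, 3, 7, 0] (by decide)
  have e4 : Ex N 4 := link hN e5 ![13, 4, 2, 0] (by decide)
  have e2 : Ex N 2 := link hN e4 ![13, 1, 2, 0] (by decide)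
  have e3 : Ex N 3 := link hN e4 ![13, 7, 2, 0] (by decide)
  have e0 : Ex N 0 := link hN e2 ![1, 1, 2, 0] (by decide)
  have e1 : Ex N 1 := link hN e3 ![1, 7, 2, 0] (by decide)
  have e10 : Ex N 10 := link hN e11 ![10, 4, 5, 0] (by decide)
  have e8 : Ex N 8 := link hN e10 ![10, 1, 5, 0] (by decide)
  have e9 : Ex N 9 := link hN e10 ![10, 7, 5, 0] (by decide)
  have e6 : Ex N 6 := link hN e8 ![10, 1, 15, 0] (by decide)
  have e7 : Ex N 7 := link hN e9 ![10, 7, 15, 0] (by decide)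
  interval_cases i <;> assumption

theorem bot_ne (q : Pt) {j : Fin 4} (h : j ≠ 3) : bot q j = q j := Function.update_of_ne h _ _

theorem bot_three (q : Pt) : bot q 3 = 0 := Function.update_self _ _ _

theorem bot_update (h : q 3 = 0) (t : ℤ) : bot (Function.update q 3 t) = q := by
  rw [bot, Function.update_idem, ← h, Function.update_eq_self]

theorem inBox_bot (hN : 0 < N) (ha : a 3 = 0) (hb : b 3 = 3) :
    InBox N a b q ↔ InBox N a b (bot q) ∧ 0 ≤ q 3 ∧ q 3 < 3 * N := by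
  refine ⟨fun h => ⟨fun j => ?_, ?_⟩, fun h j => ?_⟩
  · by_cases hj : j = 3
    · rw [hj, bot_three, ha, hb]
      omega
    · rw [bot_ne q hj]
      exact h j
  · have := h 3
    rw [ha, hb] at this
    omega
  · by_cases hj : j = 3
    · rw [hj, ha, hb]
      omega
    · rw [← bot_ne q hj]
      exact h.1 j

theorem Uc_bot (hN : 0 < N) : q ∈ Uc N ↔ bot q ∈ Uc N ∧ 0 ≤ q 3 ∧ q 3 < 3 * N := by
  have h1 : ∀ c ∈ caves, c.1 3 = 0 ∧ c.2 3 = 3 := by decide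
  have h2 := @inBox_bot N 0 boxHi q hN rfl rfl
  refine ⟨fun h => ⟨⟨(h2.1 h.1).1, fun c hc k => h.2 c hc ?_⟩, (h2.1 h.1).2⟩,
    fun h => ⟨h2.2 ⟨h.1.1, h.2⟩, fun c hc k => h.1.2 c hc ?_⟩⟩
  · exact (inBox_bot hN (h1 c hc).1 (h1 c hc).2).2 ⟨k, (h2.1 h.1).2⟩
  · exact ((inBox_bot hN (h1 c hc).1 (h1 c hc).2).1 k).1

theorem Qc_bot (hN : 0 < N) (l : Lg) :
    q ∈ Qc N l ↔ bot q ∈ Qc N l ∧ 0 ≤ q 3 ∧ q 3 < 3 * N := by
  have h1 : ∀ l : Lg, org l 3 = 0 ∧ (org l + 3) 3 = 3 := by decide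
  exact inBox_bot hN (h1 l).1 (h1 l).2

theorem col_bot (hN : 0 < N) (s : Bool) : (q ∈ Uc N ∧ ∀ i, q ∉ Qc N (i, s)) ↔
    (bot q ∈ Uc N ∧ ∀ i, bot q ∉ Qc N (i, s)) ∧ 0 ≤ q 3 ∧ q 3 < 3 * N :=
  ⟨fun h => ⟨⟨((Uc_bot hN).1 h.1).1, fun i k => h.2 i
      ((Qc_bot hN _).2 ⟨k, ((Uc_bot hN).1 h.1).2⟩)⟩, ((Uc_bot hN).1 h.1).2⟩,
    fun h => ⟨(Uc_bot hN).2 ⟨h.1.1, h.2⟩, fun i k => h.1.2 i ((Qc_bot hN _).1 k).1⟩⟩

theorem Kof_eq (hN : 0 < N) {X : Set Pt}
    (hX : ∀ q, q ∈ X ↔ bot q ∈ X ∧ 0 ≤ q 3 ∧ q 3 < 3 * N) : Kof X = Cy X ∩ Sl (6 * N) := by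
  ext p
  constructor
  · rintro ⟨q, hq, h⟩
    obtain ⟨h1, h2⟩ := (hX q).1 hq
    refine ⟨⟨bot q, h1, bot_three q, fun j hj => ?_⟩, ?_⟩
    · rw [cell, bot_ne q hj]
      exact h j
    · have h3 := abs_le.1 (h 3)
      rw [cell] at h3
      constructor <;> omega
  · rintro ⟨⟨q, hq, h3, h⟩, h1, h2⟩
    refine ⟨Function.update q 3 (min (p 3 / 2) (3 * N - 1)), (hX _).2 ⟨?_, ?_⟩, fun j => ?_⟩
    · rwa [bot_update h3]
    · rw [Function.update_self]
      omega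
    · by_cases hj : j = 3
      · rw [hj, cell, Function.update_self, abs_le]
        omega
      · rw [cell, Function.update_of_ne hj]
        exact h j hj

theorem Rc_union : Rc N ∪ Bc N = Uc N := by
  have h1 : ∀ i i' : Fin 3, ∃ j, (org (i, true) + 3) j ≤ org (i', false) j ∨
      (org (i', false) + 3) j ≤ org (i, true) j := by decide
  refine Set.Subset.antisymm (Set.union_subset (fun _ h => h.1) fun _ h => h.1) fun q hq => ?_
  by_cases h : ∀ i, q ∉ Qc N (i, true)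
  · exact Or.inl ⟨hq, h⟩
  · push Not at h
    obtain ⟨i, hi⟩ := h
    exact Or.inr ⟨hq, fun i' hi' => not_both hi hi' (h1 i i')⟩

end Outx

open Outx

theorem out_all {N : ℕ} (hN : 0 < N) (q : Pt) (h3 : q 3 = 0) (hq : q ∉ Uc N) : Out N q := by
  by_cases h : InBox N 0 boxHi q
  · have h1 : ¬ ∀ c ∈ caves, ¬ InBox N c.1 c.2 q := fun h1 => hq ⟨h, h1⟩
    push Not at h1
    obtain ⟨c, hc, h1⟩ := h1
    obtain ⟨i, hi, rfl⟩ := mem_cv hc
    exact ex_all hN hi q h1 h3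
  · exact Out.base q h

theorem Qc_subset {N : ℕ} (l : Lg) : Qc N l ⊆ Uc N := by
  have h1 : ∀ l : Lg, ∀ j, (0 : Pt) j ≤ org l j ∧ (org l + 3) j ≤ boxHi j := by decide
  have h2 : ∀ l : Lg, ∀ c ∈ caves, ∃ j, (org l + 3) j ≤ c.1 j ∨ c.2 j ≤ org l j := by decide
  exact fun q hq => ⟨inBox_mono hq (h1 l), fun c hc h => not_both hq h (h2 l c hc)⟩

theorem cyl_Cy (X : Set Pt) : IsCyl (Cy X) := fun p t =>
  exists_congr fun q => and_congr_right fun _ => and_congr_right fun _ =>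
    forall₂_congr fun j hj => by rw [Function.update_of_ne hj]

theorem KR_eq {N : ℕ} (hN : 0 < N) : KR N = Cy (Rc N) ∩ Sl (6 * N) :=
  Kof_eq hN fun _ => col_bot hN true

theorem KB_eq {N : ℕ} (hN : 0 < N) : KB N = Cy (Bc N) ∩ Sl (6 * N) :=
  Kof_eq hN fun _ => col_bot hN false

theorem KS_eq {N : ℕ} (hN : 0 < N) : KS N =
    Cy (Rc N) ∩ Cy (Bc N) ∩ Sl (6 * N) ∩ (Cy (Uc N)ᶜ ∪ Lv 0 ∪ Lv (6 * N)) := by
  rw [KS, KR_eq hN, KB_eq hN, ← Set.inter_inter_distrib_right]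
  ext p
  refine and_congr_right fun hp => ⟨?_, ?_⟩
  · rintro ⟨q, hq, h⟩
    have h3 := abs_le.1 (h 3)
    obtain ⟨h1, h2⟩ := hp.2
    rw [cell] at h3
    by_cases h4 : 0 ≤ q 3 ∧ q 3 < 3 * N
    · refine Or.inl (Or.inl ⟨bot q, fun k => hq ((Uc_bot hN).2 ⟨k, h4⟩), bot_three q,
        fun j hj => ?_⟩)
      rw [cell, bot_ne q hj]
      exact h j
    · by_cases h5 : q 3 < 0
      · exact Or.inl (Or.inr (show p 3 = 0 by omega))
      · exact Or.inr (show p 3 = 6 * N by omega)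
  · have h0 : ∀ j, |p j - (2 * (p j / 2) + 1)| ≤ 1 := fun j => by
      rw [abs_le]
      omega
    rintro ((⟨q, hq, h3, h⟩ | h) | h)
    · refine ⟨Function.update q 3 (p 3 / 2), fun k => hq ?_, fun j => ?_⟩
      · have := ((Uc_bot hN).1 k).1
        rwa [bot_update h3] at this
      · by_cases hj : j = 3
        · rw [hj, cell, Function.update_self]
          exact h0 3
        · rw [cell, Function.update_of_ne hj]
          exact h j hj
    · refine ⟨Function.update (fun j => p j / 2) 3 (-1), fun k => ?_, fun j => ?_⟩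
      · have := ((Uc_bot hN).1 k).2.1
        rw [Function.update_self] at this
        omega
      · by_cases hj : j = 3
        · rw [hj, cell, Function.update_self, show p 3 = 0 from h]
          decide
        · rw [cell, Function.update_of_ne hj]
          exact h0 j
    · refine ⟨fun j => p j / 2, fun k => ?_, h0⟩
      have h1 : p 3 / 2 < 3 * N := ((Uc_bot hN).1 k).2.2
      have h2 : p 3 = 6 * N := h
      omega

theorem Cy_union {N : ℕ} (hN : 0 < N) : Cy (Rc N) ∪ Cy (Bc N) = Cy (Uc N) := by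
  rw [← Rc_union]
  ext p
  constructor
  · rintro (⟨q, h1, h2⟩ | ⟨q, h1, h2⟩)
    exacts [⟨q, Or.inl h1, h2⟩, ⟨q, Or.inr h1, h2⟩]
  · rintro ⟨q, h1 | h1, h2⟩
    exacts [Or.inl ⟨q, h1, h2⟩, Or.inr ⟨q, h1, h2⟩]

end Vale.Agent.P215Z.Coh
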