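import Vale.Agent.P215Z.Coh.Basic

/-!
# P215, from scalar forms to matrix valued forms modulo ideals
-/

noncomputable section
namespace Vale.Agent.P215Z.Coh
open MvPolynomial Fm

variable {O : Type} [CommRing O] [Algebra ℚ O] {K K' K'' L : Set Pt} {n : ℤ} {ω ω' : Form O}

theorem exists_proj (b b' : Ideal O) : ∃ π : O →+ O, (∀ x, π x ∈ b) ∧
    (∀ x ∈ b, π x - x ∈ b') ∧ (∀ x ∈ b, x ∈ b' → π x = 0) ∧ ∀ x ∈ b, π (π x) = π x := by
  have key : ∀ c : Ideal O, ∃ r : O →+ O, (∀ x, r x ∈ c) ∧ ∀ x ∈ c, r x = x := fun c => by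
    obtain ⟨r, hr⟩ := LinearMap.exists_leftInverse_of_injective (c.restrictScalars ℚ).subtype
      (Submodule.ker_subtype _)
    exact ⟨((c.restrictScalars ℚ).subtype.comp r).toAddMonoidHom, fun x => (r x).2,
      fun x hx => congrArg Subtype.val (LinearMap.congr_fun hr ⟨x, hx⟩)⟩
  obtain ⟨r, r1, r2⟩ := key b
  obtain ⟨q, q1, q2⟩ := key (b ⊓ b')
  have e : ∀ x, (r - q.comp r) x = r x - q (r x) := fun _ => rfl
  refine ⟨r - q.comp r, fun x => b.sub_mem (r1 x) (q1 _).1, fun x hx => ?_, fun x hx hx' => ?_,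
    fun x hx => ?_⟩
  · rw [e, r2 x hx, sub_sub_cancel_left]
    exact b'.neg_mem (q1 x).2
  · rw [e, r2 x hx, q2 x ⟨hx, hx'⟩, sub_self]
  · rw [e x, r2 x hx, e, r2 _ (b.sub_mem hx (q1 x).1), map_sub q, q2 _ (q1 x), sub_self, sub_zero]

namespace Api

omit [Algebra ℚ O]

/-- the properties of the projection -/
structure Pr (b b' : Ideal O) (π : O →+ O) : Prop where
  mem : ∀ x, π x ∈ b
  sub : ∀ x ∈ b, π x - x ∈ b'
  zero : ∀ x ∈ b, x ∈ b' → π x = 0
  idem : ∀ x ∈ b, π (π x) = π x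

variable {b b' : Ideal O} {π : O →+ O} {P Q : Py O}

theorem Pr.cmem (h : Pr b b' π) (P : Py O) : cm π P ∈ Cf b :=
  mem_Cf.2 fun m => coeff_cm π P m ▸ h.mem _

theorem Pr.csub (h : Pr b b' π) (hP : P ∈ Cf b) : cm π P - P ∈ Cf b' :=
  mem_Cf.2 fun m => by
    rw [coeff_sub, coeff_cm]
    exact h.sub _ (mem_Cf.1 hP m)

theorem Pr.czero (h : Pr b b' π) (hP : P ∈ Cf b) (hP' : P ∈ Cf b') : cm π P = 0 := by
  ext m
  rw [coeff_cm, h.zero _ (mem_Cf.1 hP m) (mem_Cf.1 hP' m), coeff_zero]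

theorem Pr.cidem (h : Pr b b' π) (hP : P ∈ Cf b) : cm π (cm π P) = cm π P := by
  ext m
  rw [coeff_cm, coeff_cm, h.idem _ (mem_Cf.1 hP m)]

theorem Pr.ceq (h : Pr b b' π) (hP : P ∈ Cf b) (hQ : Q ∈ Cf b) (hd : P - Q ∈ Cf b') :
    cm π P = cm π Q := by
  rw [← sub_eq_zero, ← map_sub]
  exact h.czero ((Cf b).sub_mem hP hQ) hd

theorem dc_one (w : Ix → Py O) (i : Fin 4) : dc w {i} = pderiv i (w ∅) := by
  have h : sgn i {i} = 1 := by revert i; decide
  rw [dc, Finset.sum_singleton, Finset.erase_singleton, h, one_smul]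

theorem dc_two (w : Ix → Py O) {i j : Fin 4} (h : i < j) :
    dc w {i, j} = pderiv i (w {j}) - pderiv j (w {i}) := by
  have h1 : ∀ i j : Fin 4, i < j → sgn i {i, j} = 1 ∧ sgn j {i, j} = -1 ∧
      ({i, j} : Ix).erase i = {j} ∧ ({i, j} : Ix).erase j = {i} := by decide
  obtain ⟨a, b, c, d⟩ := h1 i j h
  rw [dc, Finset.sum_pair h.ne, a, b, c, d, one_smul, neg_smul, one_smul, sub_eq_add_neg]

theorem dc_three (w : Ix → Py O) {i j k : Fin 4} (h : i < j) (h' : j < k) :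
    dc w {i, j, k} = pderiv i (w {j, k}) - pderiv j (w {i, k}) + pderiv k (w {i, j}) := by
  have h1 : ∀ i j k : Fin 4, i < j → j < k → sgn i {i, j, k} = 1 ∧ sgn j {i, j, k} = -1 ∧
      sgn k {i, j, k} = 1 ∧ ({i, j, k} : Ix).erase i = {j, k} ∧
      ({i, j, k} : Ix).erase j = {i, k} ∧ ({i, j, k} : Ix).erase k = {i, j} ∧
      i ∉ ({j, k} : Ix) := by decide
  obtain ⟨a, b, c, d, e, f, g⟩ := h1 i j k h h'
  rw [dc, Finset.sum_insert g, Finset.sum_pair h'.ne, a, b, c, d, e, f, one_smul, neg_smul,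
    one_smul, one_smul, sub_eq_add_neg, add_assoc]

theorem card_two (I : Ix) (h : I.card = 2) : ∃ i j : Fin 4, i < j ∧ I = {i, j} := by
  revert I
  decide

theorem card_three (I : Ix) (h : I.card = 3) :
    ∃ i j k : Fin 4, i < j ∧ j < k ∧ I = {i, j, k} := by
  revert I
  decide

/-- a one-form with given components -/
def f1 (a : Fin 4 → Py O) (I : Ix) : Py O := ∑ i, if I = {i} then a i else 0

theorem f1_one (a : Fin 4 → Py O) (i : Fin 4) : f1 a {i} = a i := by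
  simp [f1]

theorem f1_ne (a : Fin 4 → Py O) {I : Ix} (h : I.card ≠ 1) : f1 a I = 0 :=
  Finset.sum_eq_zero fun i _ => if_neg fun e => h (by rw [e, Finset.card_singleton])

/-- a two-form with given components -/
def f2 (c : Fin 4 → Fin 4 → Py O) (I : Ix) : Py O :=
  ∑ q : Fin 4 × Fin 4, if q.1 < q.2 ∧ I = {q.1, q.2} then c q.1 q.2 else 0

theorem f2_two (c : Fin 4 → Fin 4 → Py O) {i j : Fin 4} (h : i < j) : f2 c {i, j} = c i j := by
  have h1 : ∀ i j k l : Fin 4, i < j → k < l → ({i, j} : Ix) = {k, l} → (k, l) = (i, j) := by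
    decide
  rw [f2, Finset.sum_eq_single (i, j) (fun q _ hq => if_neg fun e => hq (h1 i j _ _ h e.1 e.2))
    fun h' => absurd (Finset.mem_univ _) h', if_pos ⟨h, rfl⟩]

theorem f2_ne (c : Fin 4 → Fin 4 → Py O) {I : Ix} (h : I.card ≠ 2) : f2 c I = 0 :=
  Finset.sum_eq_zero fun q _ => if_neg fun e => h (by rw [e.2, Finset.card_pair e.1.ne])

theorem cmpS_zero (K : Set Pt) (I : Ix) : CmpS K I fun _ => (0 : Py O) :=
  ⟨fun _ _ _ _ _ => rfl, fun _ _ _ _ => map_zero _, fun _ _ _ _ _ _ => map_zero _⟩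

theorem cmpS_of {I : Ix} {w : Pt → Mt O} (h : Cmp K I w) (π : O →+ O) (x y : Fin 2) :
    CmpS K I fun p => cm π (w p x y) where
  zero := fun p hp i hi ho => by
    rw [h.zero p hp i hi ho]
    exact map_zero _
  cst := fun p hp k ho => by
    rw [← cm_pderiv, show pderiv k (w p x y) = 0 from congrFun₂ (h.cst p hp k ho) x y, map_zero]
  face := fun p hp k hk ho ε => by
    rw [← cm_ev, show ev k ε (w p x y) = w (fc p k ε) x y from
      congrFun₂ (h.face p hp k hk ho ε) x y]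

theorem cmp_of {I : Ix} {w : Fin 2 → Fin 2 → Pt → Py O} (h : ∀ x y, CmpS K I (w x y))
    (π : O →+ O) : Cmp K I fun p => Matrix.of fun x y => cm π (w x y p) where
  zero := fun p hp i hi ho => by
    ext1 x y
    rw [Matrix.of_apply, (h x y).zero p hp i hi ho, map_zero]
    rfl
  cst := fun p hp k ho => by
    ext1 x y
    show pderiv k (cm π (w x y p)) = 0
    rw [← cm_pderiv, (h x y).cst p hp k ho, map_zero]
  face := fun p hp k hk ho ε => by
    ext1 x y
    show ev k ε (cm π (w x y p)) = cm π (w x y (fc p k ε))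
    rw [← cm_ev, (h x y).face p hp k hk ho ε]

/-- the scalar two-form of an entry -/
def w2 (π : O →+ O) (B : Pt → Fin 4 → Fin 4 → Mt O) (x y : Fin 2) : Form O :=
  fun p => f2 fun i j => cm π (B p i j x y)

/-- the connection read off from scalar one-forms -/
def rd (π : O →+ O) (η : Fin 2 → Fin 2 → Form O) : Conn O :=
  fun p i => Matrix.of fun x y => cm π (η x y p {i})

variable {B B' : Pt → Fin 4 → Fin 4 → Mt O}

theorem isForm_w2 (h : Is2 K B) (π : O →+ O) (x y : Fin 2) : IsForm 2 K (w2 π B x y) := by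
  refine ⟨fun p _ I hI => f2_ne _ fun e => hI (by rw [e]; rfl), fun I => ?_⟩
  by_cases hI : I.card = 2
  · obtain ⟨i, j, hij, rfl⟩ := card_two I hI
    simp only [w2, f2_two _ hij]
    exact cmpS_of (h.cmp i j) π x y
  · simp only [w2, f2_ne _ hI]
    exact cmpS_zero K I

theorem w2_congr (h : Pr b b' π) {p q : Pt} (h1 : ∀ i j, B p i j ∈ MC b)
    (h2 : ∀ i j, B' q i j ∈ MC b) (h3 : ∀ i j, B p i j - B' q i j ∈ MC b') (x y : Fin 2) :
    w2 π B x y p = w2 π B' x y q :=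
  congrArg f2 (funext₂ fun i j => h.ceq (h1 i j x y) (h2 i j x y) (h3 i j x y))

theorem read2 (h : Pr b b' π) (hB : Is2 K B) (hm : ∀ p ∈ K, ∀ i j, B p i j ∈ MC b)
    {η : Fin 2 → Fin 2 → Form O} (h1 : ∀ x y, IsForm (2 - 1) K (η x y))
    (h2 : ∀ x y, Agr K (dd (η x y)) (w2 π B x y)) :
    IsConn K b (rd π η) ∧ ∀ p ∈ K, ∀ i j, d1 (rd π η) p i j - B p i j ∈ MC b' := by
  refine ⟨⟨fun i => cmp_of (fun x y => (h1 x y).cmp {i}) π, fun p i x y => h.cmem _⟩,
    fun p hp => ?_⟩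
  have key : ∀ i j, i < j → d1 (rd π η) p i j - B p i j ∈ MC b' := fun i j hij x y => by
    have h3 := congrFun (h2 x y p hp) {i, j}
    rw [dd, dc_two _ hij, w2, f2_two _ hij] at h3
    show pderiv i (cm π (η x y p {j})) - pderiv j (cm π (η x y p {i})) - B p i j x y ∈ _
    rw [← cm_pderiv, ← cm_pderiv, ← map_sub, h3, h.cidem (hm p hp i j x y)]
    exact h.csub (hm p hp i j x y)
  intro i j
  rcases lt_trichotomy i j with hij | rfl | hij
  · exact key i j hij
  · rw [d1, hB.diag, sub_self, sub_self]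
    exact Submodule.zero_mem _
  · have := (MC b').neg_mem (key j i hij)
    rw [hB.skew p j i]
    rwa [d1, neg_sub', neg_sub] at this

variable [Algebra ℚ O]

theorem closed_w2 (h : Pr b b' π) (hB : Is2 K B) (hm : ∀ p ∈ K, ∀ i j, B p i j ∈ MC b)
    (hd : ∀ p ∈ K, ∀ i j k, d2 B p i j k ∈ MC b') (x y : Fin 2) : Van K (dd (w2 π B x y)) := by
  intro p hp
  funext I
  by_cases hI : I.card = 3
  · obtain ⟨i, j, k, h1, h2, rfl⟩ := card_three I hI
    have h3 : d2 B p i j k ∈ MC b := (MC b).add_mem ((MC b).add_mem (MC_dM _ (hm p hp _ _))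
      (MC_dM _ (hm p hp _ _))) (MC_dM _ (hm p hp _ _))
    have h4 := h.czero (h3 x y) (hd p hp i j k x y)
    rw [d2, hB.skew p i k, map_neg] at h4
    rw [dd, dc_three _ h1 h2, w2, f2_two _ h1, f2_two _ h2, f2_two _ (h1.trans h2), ← cm_pderiv,
      ← cm_pderiv, ← cm_pderiv, ← map_sub, ← map_add, sub_eq_add_neg]
    exact h4
  · exact (isForm_w2 hB π x y).dd.deg p hp I fun e => hI (by exact_mod_cast e)

end Api

open Api

theorem h1I_of {v : Pt} (hK : Closed K) (hv : IsV v) (hvK : v ∈ K) (h : RelEx O {v} K 1) :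
    H1I O K v := by
  intro b b' A hA hm hd
  obtain ⟨π, p1, p2, p3, p4⟩ := exists_proj b b'
  have hπ : Pr b b' π := ⟨p1, p2, p3, p4⟩
  have hF : ∀ x y, IsForm 1 K fun p => f1 fun i => cm π (A p i x y) := fun x y => by
    refine ⟨fun p _ I hI => f1_ne _ fun e => hI (by rw [e]; rfl), fun I => ?_⟩
    by_cases hI : I.card = 1
    · obtain ⟨i, rfl⟩ := Finset.card_eq_one.1 hI
      simp only [f1_one]
      exact cmpS_of (hA i) π x y
    · simp only [f1_ne _ hI]
      exact cmpS_zero K I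
  have hC : ∀ x y, Van K (dd fun p => f1 fun i => cm π (A p i x y)) := fun x y p hp => by
    funext I
    by_cases hI : I.card = 2
    · obtain ⟨i, j, hij, rfl⟩ := card_two I hI
      have h3 : d1 A p i j ∈ MC b := (MC b).sub_mem (MC_dM _ (hm p hp _)) (MC_dM _ (hm p hp _))
      rw [dd, dc_two _ hij, f1_one, f1_one, ← cm_pderiv, ← cm_pderiv, ← map_sub]
      exact hπ.czero (h3 x y) (hd p hp i j x y)
    · exact (hF x y).dd.deg p hp I fun e => hI (by exact_mod_cast e)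
  choose η h1 h2 h3 using fun x y => h _ (hF x y)
    (fun p hp => hp ▸ (hF x y).van_vertex hv hvK one_ne_zero) (hC x y)
  refine ⟨fun p => Matrix.of fun x y => cm π (η x y p ∅), cmp_of (fun x y => (h1 x y).cmp ∅) π,
    fun p x y => hπ.cmem _, ?_, fun p hp i x y => ?_⟩
  · ext1 x y
    show cm π (η x y v ∅) = 0
    rw [h2 x y v rfl]
    exact map_zero _
  · have h4 := congrFun (h3 x y p hp) {i}
    rw [dd, dc_one] at h4
    replace h4 := h4.trans (f1_one _ i)
    show pderiv i (cm π (η x y p ∅)) - A p i x y ∈ _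
    rw [← cm_pderiv, h4, hπ.cidem (hm p hp i x y)]
    exact hπ.csub (hm p hp i x y)

theorem h2I_of (hK : Closed K) (h : RelEx O ∅ K 2) : H2I O K := by
  intro b b' B hB hm hd
  obtain ⟨π, p1, p2, p3, p4⟩ := exists_proj b b'
  have hπ : Pr b b' π := ⟨p1, p2, p3, p4⟩
  choose η h1 _ h3 using fun x y => h _ (isForm_w2 hB π x y) (fun _ hp => hp.elim)
    (closed_w2 hπ hB hm hd x y)
  exact ⟨_, read2 hπ hB hm h1 h3⟩

theorem p2I_of {S : Set Pt} (hK : Closed K) (hK' : Closed K') (hS : S ⊆ K) (hS' : S ⊆ K')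
    (hb : ∀ p ∈ K', bot p ∈ K') (h : PairEx O K K' S 2) : P2I O K K' S := by
  intro b b' B B' hB hB' hm hm' hd hd' hi ha
  obtain ⟨π, p1, p2, p3, p4⟩ := exists_proj b b'
  have hπ : Pr b b' π := ⟨p1, p2, p3, p4⟩
  choose η η' h1 h2 h3 h4 h5 h6 using fun x y => h _ _ (isForm_w2 hB π x y) (isForm_w2 hB' π x y)
    (closed_w2 hπ hB hm hd x y) (closed_w2 hπ hB' hm' hd' x y)
    (fun p hp => w2_congr hπ (hm' p hp) (hm' _ (hb p hp)) (hi p hp) x y)
    (fun p hp => w2_congr hπ (hm p (hS hp)) (hm' p (hS' hp)) (ha p hp) x y)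
  obtain ⟨a1, a2⟩ := read2 hπ hB hm h1 h5
  obtain ⟨a3, a4⟩ := read2 hπ hB' hm' h2 h6
  refine ⟨_, _, a1, a3, fun p hp => ?_, fun p hp => ?_, a2, a4⟩
  · funext i
    ext1 x y
    exact congrArg (cm π) (congrFun (h3 x y p hp) {i})
  · funext i
    ext1 x y
    exact congrArg (cm π) (congrFun (h4 x y p hp) {i})

end Vale.Agent.P215Z.Coh
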