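import Vale.Agent.P215Z.Coh.Defs

/-!
# P215, cohomology of lattice complexes: basic facts
-/

noncomputable section
namespace Vale.Agent.P215Z.Coh
open MvPolynomial Fm

variable {O : Type} [CommRing O] {K K' K'' L : Set Pt} {n : ℤ} {ω ω' : Form O}

theorem fc_self (p : Pt) (k : Fin 4) (s : Bool) :
    fc p k s k = if s then p k + 1 else p k - 1 := by
  cases s <;> simp [fc, ee]

theorem fc_ne (p : Pt) {k j : Fin 4} (h : j ≠ k) (s : Bool) : fc p k s j = p j := by
  cases s <;> simp [fc, ee, Pi.single_eq_of_ne h]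

theorem fc_fc_not (p : Pt) (k : Fin 4) (s : Bool) : fc (fc p k s) k (!s) = p := by
  cases s <;> simp [fc]

theorem fc_comm (p : Pt) (j k : Fin 4) (s t : Bool) :
    fc (fc p j s) k t = fc (fc p k t) j s := by
  cases s <;> cases t <;> simp only [fc, if_true, Bool.false_eq_true, if_false] <;> abel

theorem not_odd_fc {p : Pt} {k : Fin 4} (h : Odd (p k)) (s : Bool) : ¬ Odd (fc p k s k) := by
  rw [fc_self]
  rw [Int.odd_iff] at h ⊢
  split_ifs <;> omega

theorem odd_fc {p : Pt} {k : Fin 4} (h : ¬ Odd (p k)) (s : Bool) : Odd (fc p k s k) := by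
  rw [fc_self]
  rw [Int.odd_iff] at h ⊢
  split_ifs <;> omega

theorem closed_inter (h : Closed K) (h' : Closed L) : Closed (K ∩ L) :=
  fun p hp k hk s => ⟨h p hp.1 k hk s, h' p hp.2 k hk s⟩

theorem closed_union (h : Closed K) (h' : Closed L) : Closed (K ∪ L) :=
  fun p hp k hk s => hp.imp (fun hp => h p hp k hk s) fun hp => h' p hp k hk s

theorem closed_iUnion {ι : Type} {F : ι → Set Pt} (h : ∀ i, Closed (F i)) : Closed (⋃ i, F i) := by
  intro p hp k hk s
  obtain ⟨i, hi⟩ := Set.mem_iUnion.1 hp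
  exact Set.mem_iUnion.2 ⟨i, h i p hi k hk s⟩

theorem closed_empty : Closed (∅ : Set Pt) := fun _ hp => hp.elim

theorem closed_univ : Closed (Set.univ : Set Pt) := fun _ _ _ _ _ => trivial

theorem closed_single {v : Pt} (hv : IsV v) : Closed {v} := by
  rintro p rfl k hk
  exact (hv k hk).elim

theorem adj_fc {p q : Pt} {j k : Fin 4} (hk : Odd (p k)) (s : Bool) (h : |p j - cell q j| ≤ 1) :
    |fc p k s j - cell q j| ≤ 1 := by
  by_cases hj : j = k
  · subst hj
    rw [fc_self]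
    rw [Int.odd_iff] at hk
    simp only [cell, abs_le] at h ⊢
    split_ifs <;> omega
  · rwa [fc_ne p hj]

theorem closed_Kof (X : Set Pt) : Closed (Kof X) := by
  rintro p ⟨q, hq, h⟩ k hk s
  exact ⟨q, hq, fun j => adj_fc hk s (h j)⟩

theorem closed_Cy (X : Set Pt) : Closed (Cy X) := by
  rintro p ⟨q, hq, h3, h⟩ k hk s
  exact ⟨q, hq, h3, fun j hj => adj_fc hk s (h j hj)⟩

theorem closed_Lv {h : ℤ} (hh : ¬ Odd h) : Closed (Lv h) := by
  intro p hp k hk s
  by_cases h3 : (3 : Fin 4) = k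
  · subst h3
    exact (hh (hp ▸ hk)).elim
  · exact (fc_ne p h3 s).trans hp

theorem closed_Sl {h : ℤ} (hh : ¬ Odd h) : Closed (Sl h) := by
  intro p hp k hk s
  by_cases h3 : (3 : Fin 4) = k
  · subst h3
    have h1 := fc_self p 3 s
    obtain ⟨h2, h4⟩ := hp
    rw [Int.odd_iff] at hh hk
    constructor <;> split_ifs at h1 <;> omega
  · have h1 := fc_ne p h3 s
    exact ⟨h1 ▸ hp.1, h1 ▸ hp.2⟩

theorem closed_Box {a b : Pt} (ha : IsV a) (hb : IsV b) : Closed (Box a b) := by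
  intro p hp k hk s j
  by_cases h : j = k
  · subst h
    have h1 := fc_self p j s
    obtain ⟨h2, h4⟩ := hp j
    have h5 := ha j
    have h6 := hb j
    rw [Int.odd_iff] at h5 h6 hk
    constructor <;> split_ifs at h1 <;> omega
  · rw [fc_ne p h]
    exact hp j

theorem closed_Bd {a b : Pt} (ha : IsV a) (hb : IsV b) : Closed (Bd a b) := by
  rintro p ⟨hp, j, hj, h⟩ k hk s
  refine ⟨closed_Box ha hb p hp k hk s, j, hj, ?_⟩
  have hjk : j ≠ k := by
    rintro rfl
    rcases h with h | h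
    · exact ha j (h ▸ hk)
    · exact hb j (h ▸ hk)
  rwa [fc_ne p hjk]

theorem sgn_mul_self (i : Fin 4) (I : Ix) : sgn i I * sgn i I = 1 := by
  rw [sgn, ← mul_pow]
  simp

theorem sgn_erase : ∀ (i j : Fin 4) (I : Ix), i ∈ I → j ∈ I → i ≠ j →
    sgn i I * sgn j (I.erase i) = -(sgn j I * sgn i (I.erase j)) := by
  unfold sgn
  decide +kernel

theorem dc_add (w w' : Ix → Py O) : dc (w + w') = dc w + dc w' := by
  funext I
  simp [dc, Finset.sum_add_distrib]

theorem dc_neg (w : Ix → Py O) : dc (-w) = -dc w := by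
  funext I
  simp [dc]

theorem dc_sub (w w' : Ix → Py O) : dc (w - w') = dc w - dc w' := by
  rw [sub_eq_add_neg, dc_add, dc_neg, sub_eq_add_neg]

theorem dc_zero : dc (0 : Ix → Py O) = 0 := by
  funext I
  simp [dc]

theorem dc_empty (w : Ix → Py O) : dc w ∅ = 0 := by
  simp [dc]

theorem dc_single (w : Ix → Py O) (i : Fin 4) : dc w {i} = pderiv i (w ∅) := by
  simp [dc, sgn, Finset.filter_singleton]

theorem pderiv_dc (w : Ix → Py O) (k : Fin 4) (I : Ix) :
    pderiv k (dc w I) = dc (fun J => pderiv k (w J)) I := by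
  simp only [dc, map_sum, map_zsmul, pderiv_comm k]

theorem dc_dc (w : Ix → Py O) : dc (dc w) = 0 := by
  funext I
  have h : dc (dc w) I = ∑ x ∈ I.offDiag, (sgn x.1 I * sgn x.2 (I.erase x.1)) •
      pderiv x.1 (pderiv x.2 (w ((I.erase x.1).erase x.2))) := by
    simp only [dc, map_sum, map_zsmul, Finset.smul_sum, smul_smul]
    rw [Finset.sum_sigma']
    refine Finset.sum_bij' (fun x _ => (x.1, x.2)) (fun x _ => ⟨x.1, x.2⟩) ?_ ?_ ?_ ?_ ?_
    · intro x hx
      simp only [Finset.mem_sigma, Finset.mem_erase] at hx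
      exact Finset.mem_offDiag.2 ⟨hx.1, hx.2.2, hx.2.1.symm⟩
    · intro x hx
      obtain ⟨h1, h2, h3⟩ := Finset.mem_offDiag.1 hx
      simp only [Finset.mem_sigma, Finset.mem_erase]
      exact ⟨h1, h3.symm, h2⟩
    · intros; rfl
    · intros; rfl
    · intros; rfl
  rw [h]
  refine Finset.sum_involution (fun x _ => x.swap) ?_ ?_ ?_ ?_
  · intro x hx
    obtain ⟨h1, h2, h3⟩ := Finset.mem_offDiag.1 hx
    simp only [Prod.fst_swap, Prod.snd_swap]
    rw [sgn_erase _ _ _ h1 h2 h3, pderiv_comm x.2 x.1, Finset.erase_right_comm, neg_smul,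
      neg_add_cancel]
  · intro x hx _ h
    exact (Finset.mem_offDiag.1 hx).2.2 (congrArg Prod.snd h)
  · intro x hx
    obtain ⟨h1, h2, h3⟩ := Finset.mem_offDiag.1 hx
    exact Finset.mem_offDiag.2 ⟨h2, h1, h3.symm⟩
  · intros; rfl

theorem ev_dc (w : Ix → Py O) {k : Fin 4} (s : Bool) {I : Ix} (h : k ∉ I) :
    ev k s (dc w I) = dc (fun J => ev k s (w J)) I := by
  simp only [dc, map_sum, map_zsmul]
  refine Finset.sum_congr rfl fun i hi => ?_
  rw [pderiv_ev_ne (by rintro rfl; exact h hi)]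

theorem cm_dc {O' : Type} [CommRing O'] (f : O →+ O') (w : Ix → Py O) (I : Ix) :
    cm f (dc w I) = dc (fun J => cm f (w J)) I := by
  simp only [dc, map_sum, map_zsmul, cm_pderiv]

theorem dc_congr {w w' : Ix → Py O} {I : Ix} (h : ∀ i ∈ I, w (I.erase i) = w' (I.erase i)) :
    dc w I = dc w' I :=
  Finset.sum_congr rfl fun i hi => by rw [h i hi]

theorem dd_add (ω ω' : Form O) : dd (ω + ω') = dd ω + dd ω' := funext fun _ => dc_add _ _
theorem dd_sub (ω ω' : Form O) : dd (ω - ω') = dd ω - dd ω' := funext fun _ => dc_sub _ _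
theorem dd_neg (ω : Form O) : dd (-ω) = -dd ω := funext fun _ => dc_neg _
theorem dd_zero : dd (0 : Form O) = 0 := funext fun _ => dc_zero
theorem dd_dd (ω : Form O) : dd (dd ω) = 0 := funext fun _ => dc_dc _

theorem Agr.dd (h : Agr K ω ω') : Agr K (dd ω) (dd ω') := fun p hp => congrArg dc (h p hp)

theorem Van.dd (h : Van K ω) : Van K (dd ω) := fun p hp => (congrArg dc (h p hp)).trans dc_zero

theorem IsForm.tan (h : IsForm n K ω) {p : Pt} (hp : p ∈ K) {I : Ix} {i : Fin 4} (hi : i ∈ I)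
    (ho : ¬ Odd (p i)) : ω p I = 0 := (h.cmp I).zero p hp i hi ho

theorem IsForm.cst (h : IsForm n K ω) {p : Pt} (hp : p ∈ K) (I : Ix) {k : Fin 4}
    (ho : ¬ Odd (p k)) : pderiv k (ω p I) = 0 := (h.cmp I).cst p hp k ho

theorem IsForm.face (h : IsForm n K ω) {p : Pt} (hp : p ∈ K) {I : Ix} {k : Fin 4} (hk : k ∉ I)
    (ho : Odd (p k)) (s : Bool) : ev k s (ω p I) = ω (fc p k s) I := (h.cmp I).face p hp k hk ho s

theorem IsForm.zero (n : ℤ) (K : Set Pt) : IsForm n K (0 : Form O) :=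
  ⟨fun _ _ _ _ => rfl, fun _ => ⟨fun _ _ _ _ _ => rfl, fun _ _ _ _ => map_zero _,
    fun _ _ _ _ _ _ => map_zero _⟩⟩

theorem IsForm.add (h : IsForm n K ω) (h' : IsForm n K ω') : IsForm n K (ω + ω') := by
  refine ⟨fun p hp I hI => ?_, fun I => ⟨fun p hp i hi ho => ?_, fun p hp k ho => ?_,
    fun p hp k hk ho s => ?_⟩⟩
  · simp only [Pi.add_apply, h.deg p hp I hI, h'.deg p hp I hI, add_zero]
  · simp only [Pi.add_apply, h.tan hp hi ho, h'.tan hp hi ho, add_zero]
  · simp only [Pi.add_apply, map_add, h.cst hp I ho, h'.cst hp I ho, add_zero]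
  · simp only [Pi.add_apply, map_add, h.face hp hk ho, h'.face hp hk ho]

theorem IsForm.neg (h : IsForm n K ω) : IsForm n K (-ω) := by
  refine ⟨fun p hp I hI => ?_, fun I => ⟨fun p hp i hi ho => ?_, fun p hp k ho => ?_,
    fun p hp k hk ho s => ?_⟩⟩
  · simp only [Pi.neg_apply, h.deg p hp I hI, neg_zero]
  · simp only [Pi.neg_apply, h.tan hp hi ho, neg_zero]
  · simp only [Pi.neg_apply, map_neg, h.cst hp I ho, neg_zero]
  · simp only [Pi.neg_apply, map_neg, h.face hp hk ho]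

theorem IsForm.sub (h : IsForm n K ω) (h' : IsForm n K ω') : IsForm n K (ω - ω') := by
  rw [sub_eq_add_neg]
  exact h.add h'.neg

theorem IsForm.mono (h : IsForm n K' ω) (hK : K ⊆ K') : IsForm n K ω :=
  ⟨fun p hp => h.deg p (hK hp), fun I => ⟨fun p hp => (h.cmp I).zero p (hK hp),
    fun p hp => (h.cmp I).cst p (hK hp), fun p hp => (h.cmp I).face p (hK hp)⟩⟩

theorem IsForm.congr (h : IsForm n K ω) (hK : Closed K) (h' : Agr K ω ω') : IsForm n K ω' := by
  refine ⟨fun p hp I hI => ?_, fun I => ⟨fun p hp i hi ho => ?_, fun p hp k ho => ?_,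
    fun p hp k hk ho s => ?_⟩⟩
  · rw [← h' p hp, h.deg p hp I hI]
  · rw [← h' p hp, h.tan hp hi ho]
  · rw [← h' p hp, h.cst hp I ho]
  · rw [← h' p hp, ← h' _ (hK p hp k ho s), h.face hp hk ho]

theorem IsForm.dd (h : IsForm n K ω) : IsForm (n + 1) K (dd ω) := by
  refine ⟨fun p hp I hI => ?_, fun I => ⟨fun p hp i hi ho => ?_, fun p hp k ho => ?_,
    fun p hp k hk ho s => ?_⟩⟩
  · refine Finset.sum_eq_zero fun i hi => ?_
    rw [h.deg p hp, map_zero, smul_zero]
    have h1 := Finset.card_erase_add_one hi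
    omega
  · refine Finset.sum_eq_zero fun j hj => ?_
    by_cases hij : i = j
    · subst hij
      rw [h.cst hp _ ho, smul_zero]
    · rw [h.tan hp (Finset.mem_erase.2 ⟨hij, hi⟩) ho, map_zero, smul_zero]
  · change pderiv k (dc (ω p) I) = 0
    rw [pderiv_dc]
    simp only [h.cst hp _ ho]
    exact congrFun dc_zero I
  · change ev k s (dc (ω p) I) = dc (ω (fc p k s)) I
    rw [ev_dc _ s hk]
    exact dc_congr fun i _ => h.face hp (fun hk' => hk (Finset.mem_of_mem_erase hk')) ho s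

theorem IsForm.of_local (h : ∀ p ∈ K, ∃ L, p ∈ L ∧ IsForm n L ω) : IsForm n K ω := by
  refine ⟨fun p hp I hI => ?_, fun I => ⟨fun p hp i hi ho => ?_, fun p hp k ho => ?_,
    fun p hp k hk ho s => ?_⟩⟩ <;> obtain ⟨L, hL, h1⟩ := h p hp
  · exact h1.deg p hL I hI
  · exact h1.tan hL hi ho
  · exact h1.cst hL I ho
  · exact h1.face hL hk ho s

theorem IsForm.of_union (h : IsForm n K ω) (h' : IsForm n L ω) : IsForm n (K ∪ L) ω :=
  .of_local fun _ hp => hp.elim (fun hp => ⟨K, hp, h⟩) fun hp => ⟨L, hp, h'⟩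

theorem IsForm.glue (hK : Closed K) (hL : Closed L) (h : IsForm n K ω) (h' : IsForm n L ω')
    (hA : Agr (K ∩ L) ω ω') : ∃ θ : Form O, IsForm n (K ∪ L) θ ∧ Agr K θ ω ∧ Agr L θ ω' := by
  classical
  have h1 : Agr K (fun p => if p ∈ K then ω p else ω' p) ω := fun p hp => if_pos hp
  have h2 : Agr L (fun p => if p ∈ K then ω p else ω' p) ω' := by
    intro p hp
    by_cases hp' : p ∈ K
    · exact (if_pos hp').trans (hA p ⟨hp', hp⟩)
    · exact if_neg hp'
  exact ⟨_, (h.congr hK fun p hp => (h1 p hp).symm).of_union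
    (h'.congr hL fun p hp => (h2 p hp).symm), h1, h2⟩

theorem IsForm.van_neg (h : IsForm n K ω) (hn : n < 0) : Van K ω :=
  fun p hp => funext fun I => h.deg p hp I (by omega)

theorem IsForm.van_vertex (h : IsForm n K ω) {v : Pt} (hv : IsV v) (hK : v ∈ K) (hn : n ≠ 0) :
    ω v = 0 := by
  funext I
  rcases I.eq_empty_or_nonempty with rfl | ⟨i, hi⟩
  · exact h.deg v hK ∅ (by simpa using hn.symm)
  · exact h.tan hK hi (hv i)

theorem relEx_of_van (h : ∀ ω : Form O, IsForm n K' ω → Van K ω → Van K' (dd ω) → Van K' ω) :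
    RelEx O K K' n := fun ω h1 h2 h3 =>
  ⟨0, .zero _ _, fun _ _ => rfl, fun p hp => by rw [dd_zero, h ω h1 h2 h3 p hp]; rfl⟩

theorem relEx_refl (K : Set Pt) (n : ℤ) : RelEx O K K n := relEx_of_van fun _ _ h _ => h

theorem relEx_neg (K K' : Set Pt) (hn : n < 0) : RelEx O K K' n :=
  relEx_of_van fun _ h _ _ => h.van_neg hn

theorem relEx_vertex {v : Pt} (hv : IsV v) (hn : n ≠ 0) : RelEx O ∅ {v} n :=
  relEx_of_van fun _ h _ _ p hp => by
    obtain rfl : p = v := hp
    exact h.van_vertex hv rfl hn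

/-- connectivity -/
theorem relEx_reach [Algebra ℚ O] (hK' : Closed K') (_hK : K ⊆ K')
    (h : ∀ p ∈ K', Reach K K' p) : RelEx O K K' 0 := by
  refine relEx_of_van fun ω h1 h2 h3 p hp => ?_
  have h0 : ∀ p ∈ K', ω p ∅ = 0 → ω p = 0 := by
    intro p hp h
    funext I
    rcases I.eq_empty_or_nonempty with rfl | hI
    · exact h
    · have := hI.card_pos
      exact h1.deg p hp I (by omega)
  have h4 := h p hp
  clear hp
  induction h4 with
  | base p hp => exact h2 p hp
  | face p k s hp hk _ ih =>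
    refine h0 _ (hK' p hp k hk s) ?_
    rw [← h1.face hp (Finset.notMem_empty k) hk s, ih]
    exact map_zero _
  | coface p k s hp hk _ ih =>
    refine h0 p hp ?_
    have h5 : pderiv k (ω p ∅) = 0 := by
      rw [← dc_single]
      exact congrFun (h3 p hp) {k}
    rw [← ev_of_pderiv h5 s, h1.face hp (Finset.notMem_empty k) hk s, ih]
    rfl

end Vale.Agent.P215Z.Coh
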