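import Vale.Agent.P215Z.Coh.Sweep

/-!
# P215, cohomology of lattice complexes: boxes and their boundaries
-/

noncomputable section
namespace Vale.Agent.P215Z.Coh
open MvPolynomial Fm

variable {O : Type} [CommRing O] [Algebra ℚ O] {K K' K'' L : Set Pt} {n : ℤ} {ω ω' : Form O}

namespace BoxAux

theorem bound (a b : Pt) (k : Fin 4) (K : Set Pt) :
    ∃ c : ℤ, ∀ p ∈ Box a b, p ∉ K → |p k| ≤ c :=
  ⟨|a k| + |b k|, fun p hp _ => by
    have h := hp k
    have h1 := neg_abs_le (a k)
    have h2 := le_abs_self (b k)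
    have h3 := abs_nonneg (a k)
    have h4 := abs_nonneg (b k)
    rw [abs_le]
    constructor <;> omega⟩

theorem box_mono {a b a' b' : Pt} (ha : ∀ j, a' j ≤ a j) (hb : ∀ j, b j ≤ b' j) :
    Box a b ⊆ Box a' b' := fun _ hp j => ⟨(ha j).trans (hp j).1, (hp j).2.trans (hb j)⟩

/-- moving the upper corner -/
theorem step_up {a b b' : Pt} (ha : IsV a) (hb : IsV b) (hb' : IsV b') (k : Fin 4)
    (hab : a k ≤ b k) (hk : b k ≤ b' k) (hj : ∀ j, j ≠ k → b' j = b j) (n : ℤ) :
    RelEx O (Box a b) (Box a b') n := by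
  have new : ∀ p ∈ Box a b', p ∉ Box a b → b k < p k := fun p hp hn => by
    by_contra hlt
    refine hn fun j => ⟨(hp j).1, ?_⟩
    by_cases e : j = k
    · subst e; omega
    · rw [← hj j e]; exact (hp j).2
  refine relEx_sweep (closed_Box ha hb) (closed_Box ha hb') (box_mono (fun _ => le_rfl) fun j => ?_)
    k true (fun p hp hn _ hq => ?_) (fun p hp hn _ j => ?_) (bound a b' k _) n
  · by_cases e : j = k
    · subst e; exact hk
    · rw [hj j e]
  · have h1 := (hq k).2
    have h2 := new p hp hn
    rw [fc_self] at h1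
    simp only [if_true] at h1
    omega
  · by_cases e : j = k
    · subst e
      have h1 := hp j
      have h2 := new p hp hn
      rw [fc_self]
      simp only [Bool.not_true, Bool.false_eq_true, if_false]
      constructor <;> omega
    · rw [fc_ne p e]; exact hp j

/-- moving the lower corner -/
theorem step_down {a a' b : Pt} (ha : IsV a) (ha' : IsV a') (hb : IsV b) (k : Fin 4)
    (hab : a k ≤ b k) (hk : a' k ≤ a k) (hj : ∀ j, j ≠ k → a' j = a j) (n : ℤ) :
    RelEx O (Box a b) (Box a' b) n := by
  have new : ∀ p ∈ Box a' b, p ∉ Box a b → p k < a k := fun p hp hn => by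
    by_contra hlt
    refine hn fun j => ⟨?_, (hp j).2⟩
    by_cases e : j = k
    · subst e; omega
    · rw [← hj j e]; exact (hp j).1
  refine relEx_sweep (closed_Box ha hb) (closed_Box ha' hb) (box_mono (fun j => ?_) fun _ => le_rfl)
    k false (fun p hp hn _ hq => ?_) (fun p hp hn _ j => ?_) (bound a' b k _) n
  · by_cases e : j = k
    · subst e; exact hk
    · rw [hj j e]
  · have h1 := (hq k).1
    have h2 := new p hp hn
    rw [fc_self] at h1
    simp only [Bool.false_eq_true, if_false] at h1
    omega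
  · by_cases e : j = k
    · subst e
      have h1 := hp j
      have h2 := new p hp hn
      rw [fc_self]
      simp only [Bool.not_false, if_true]
      constructor <;> omega
    · rw [fc_ne p e]; exact hp j

/-- the coordinates in `s` are taken from `a`, the other ones from `v` -/
def mix (s : Finset (Fin 4)) (a v : Pt) : Pt := fun j => if j ∈ s then a j else v j

theorem mix_isV (s : Finset (Fin 4)) {a v : Pt} (ha : IsV a) (hv : IsV v) : IsV (mix s a v) :=
  fun j => by
    unfold mix
    split_ifs
    exacts [ha j, hv j]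

theorem mix_ins {s : Finset (Fin 4)} {k j : Fin 4} (a v : Pt) (h : j ≠ k) :
    mix (insert k s) a v j = mix s a v j := by
  simp [mix, h]

theorem mix_new (s : Finset (Fin 4)) (k : Fin 4) (a v : Pt) : mix (insert k s) a v k = a k := by
  simp [mix]

theorem mix_old {s : Finset (Fin 4)} {k : Fin 4} (h : k ∉ s) (a v : Pt) : mix s a v k = v k := by
  simp [mix, h]

theorem box_self (v : Pt) : Box v v = {v} := by
  ext p
  exact ⟨fun h => funext fun j => le_antisymm (h j).2 (h j).1, fun h j => by
    rw [Set.mem_singleton_iff.1 h]; exact ⟨le_rfl, le_rfl⟩⟩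

theorem box_mix {a b v : Pt} (ha : IsV a) (hb : IsV b) (hv : IsV v) (h : v ∈ Box a b) (n : ℤ)
    (s : Finset (Fin 4)) : RelEx O (Box v v) (Box (mix s a v) (mix s b v)) n := by
  have lo : ∀ (s : Finset (Fin 4)) (j : Fin 4), mix s a v j ≤ v j := fun s j => by
    unfold mix
    split_ifs
    exacts [(h j).1, le_rfl]
  have hi : ∀ (s : Finset (Fin 4)) (j : Fin 4), v j ≤ mix s b v j := fun s j => by
    unfold mix
    split_ifs
    exacts [(h j).2, le_rfl]
  induction s using Finset.induction_on with
  | empty =>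
    have e : ∀ c : Pt, mix ∅ c v = v := fun c => funext fun j => by simp [mix]
    rw [e, e]
    exact relEx_refl _ _
  | @insert k s hk ih =>
    have u : ∀ j, mix s b v j ≤ mix (insert k s) b v j := fun j => by
      by_cases e : j = k
      · subst e; rw [mix_old hk]; exact hi _ _
      · rw [mix_ins b v e]
    have d : ∀ j, mix (insert k s) a v j ≤ mix s a v j := fun j => by
      by_cases e : j = k
      · subst e; rw [mix_old hk]; exact lo _ _
      · rw [mix_ins a v e]
    have t1 := step_up (O := O) (mix_isV s ha hv) (mix_isV s hb hv) (mix_isV (insert k s) hb hv) k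
      ((lo s k).trans (hi s k)) (u k) (fun j e => mix_ins b v e) n
    have t2 := step_down (O := O) (mix_isV s ha hv) (mix_isV (insert k s) ha hv)
      (mix_isV (insert k s) hb hv) k ((lo s k).trans (hi _ k)) (d k) (fun j e => mix_ins a v e) n
    exact RelEx.trans (closed_Box (mix_isV s ha hv) (mix_isV (insert k s) hb hv))
      (box_mono (lo s) (hi _)) (box_mono d fun _ => le_rfl)
      (RelEx.trans (closed_Box (mix_isV s ha hv) (mix_isV s hb hv)) (box_mono (lo s) (hi s))
        (box_mono (fun _ => le_rfl) u) ih t1) t2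

/-- the boundary without the upper face in the direction `k` -/
def Horn (a b : Pt) (k : Fin 4) : Set Pt :=
  {p | p ∈ Box a b ∧ (p k = a k ∨ ∃ j, j ≠ k ∧ a j < b j ∧ (p j = a j ∨ p j = b j))}

theorem closed_horn {a b : Pt} (ha : IsV a) (hb : IsV b) (k : Fin 4) : Closed (Horn a b k) := by
  intro p hp i hi ε
  refine ⟨closed_Box ha hb p hp.1 i hi ε, ?_⟩
  rcases hp.2 with h | ⟨j, h1, h2, h3⟩
  · have e : k ≠ i := by
      rintro rfl
      exact ha k (h ▸ hi)
    exact Or.inl (by rw [fc_ne p e]; exact h)
  · have e : j ≠ i := by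
      rintro rfl
      rcases h3 with h | h
      exacts [ha j (h ▸ hi), hb j (h ▸ hi)]
    exact Or.inr ⟨j, h1, h2, by rw [fc_ne p e]; exact h3⟩

theorem horn_box {a b : Pt} (ha : IsV a) (hb : IsV b) (k : Fin 4) (n : ℤ) :
    RelEx O (Horn a b k) (Box a b) n := by
  refine relEx_sweep (closed_horn ha hb k) (closed_Box ha hb) (fun _ hp => hp.1) k true
    (fun p hp hn _ hq => ?_) (fun p hp hn _ j => ?_) (bound a b k _) n
  · rcases hq.2 with h | ⟨j, h1, h2, h3⟩
    · have h1 := (hp k).1
      rw [fc_self] at h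
      simp only [if_true] at h
      omega
    · rw [fc_ne p h1] at h3
      exact hn ⟨hp, Or.inr ⟨j, h1, h2, h3⟩⟩
  · by_cases e : j = k
    · subst e
      have h1 := hp j
      have h2 : p j ≠ a j := fun h => hn ⟨hp, Or.inl h⟩
      rw [fc_self]
      simp only [Bool.not_true, Bool.false_eq_true, if_false]
      constructor <;> omega
    · rw [fc_ne p e]; exact hp j

theorem mem_top {a b p : Pt} {k : Fin 4} (hk : a k < b k) :
    p ∈ Box (Function.update a k (b k)) b ↔ p ∈ Box a b ∧ p k = b k := by
  constructor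
  · intro h
    have h1 := h k
    rw [Function.update_self] at h1
    refine ⟨fun j => ⟨?_, (h j).2⟩, le_antisymm h1.2 h1.1⟩
    by_cases e : j = k
    · subst e; omega
    · have h2 := (h j).1
      rwa [Function.update_of_ne e] at h2
  · rintro ⟨h, h1⟩ j
    refine ⟨?_, (h j).2⟩
    by_cases e : j = k
    · subst e; rw [Function.update_self]; omega
    · rw [Function.update_of_ne e]; exact (h j).1

theorem horn_union {a b : Pt} {k : Fin 4} (hk : a k < b k) :
    Horn a b k ∪ Box (Function.update a k (b k)) b = Bd a b := by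
  ext p
  constructor
  · rintro (⟨h, h1 | ⟨j, -, h2⟩⟩ | h)
    · exact ⟨h, k, hk, Or.inl h1⟩
    · exact ⟨h, j, h2⟩
    · rw [mem_top hk] at h
      exact ⟨h.1, k, hk, Or.inr h.2⟩
  · rintro ⟨h, j, h1, h2⟩
    by_cases e : j = k
    · subst e
      rcases h2 with h2 | h2
      exacts [Or.inl ⟨h, Or.inl h2⟩, Or.inr ((mem_top hk).2 ⟨h, h2⟩)]
    · exact Or.inl ⟨h, Or.inr ⟨j, e, h1, h2⟩⟩

theorem horn_inter {a b : Pt} {k : Fin 4} (hk : a k < b k) :
    Horn a b k ∩ Box (Function.update a k (b k)) b = Bd (Function.update a k (b k)) b := by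
  ext p
  constructor
  · rintro ⟨⟨-, h1 | ⟨j, e, h2⟩⟩, h⟩
    · have h3 := ((mem_top hk).1 h).2
      omega
    · exact ⟨h, j, by rw [Function.update_of_ne e]; exact h2⟩
  · rintro ⟨h, j, h1, h2⟩
    have e : j ≠ k := by
      rintro rfl
      rw [Function.update_self] at h1
      exact lt_irrefl _ h1
    rw [Function.update_of_ne e] at h1 h2
    exact ⟨⟨((mem_top hk).1 h).1, Or.inr ⟨j, e, h1, h2⟩⟩, h⟩

theorem bdim_top {a b : Pt} {k : Fin 4} (hk : a k < b k) :
    bdim (Function.update a k (b k)) b + 1 = bdim a b := by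
  have e : (Finset.univ.filter fun j => Function.update a k (b k) j < b j) =
      (Finset.univ.filter fun j => a j < b j).erase k := by
    ext j
    by_cases e : j = k
    · subst e; simp
    · simp [e]
  unfold bdim
  rw [e, Finset.card_erase_add_one (by simpa using hk)]

theorem bd_box (d : ℕ) : ∀ (a b : Pt) (n : ℤ), IsV a → IsV b → bdim a b = d → n < d →
    RelEx O (Bd a b) (Box a b) n := by
  induction d with
  | zero => exact fun a b n _ _ _ hn => relEx_neg _ _ (by simpa using hn)
  | succ d ih =>
    intro a b n ha hb hd hn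
    obtain ⟨k, hk⟩ : (Finset.univ.filter fun j => a j < b j).Nonempty :=
      Finset.card_pos.1 (by unfold bdim at hd; omega)
    have hk : a k < b k := by simpa using hk
    have ha' : IsV (Function.update a k (b k)) := fun j => by
      by_cases e : j = k
      · subst e; rw [Function.update_self]; exact hb j
      · rw [Function.update_of_ne e]; exact ha j
    have h1 := ih _ b (n - 1) ha' hb (by have := bdim_top hk; omega) (by push_cast at hn; omega)
    rw [← horn_inter hk] at h1
    have h2 := RelEx.glue_one (closed_horn ha hb k) (closed_Box ha' hb) h1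
    rw [horn_union hk] at h2
    exact RelEx.up (closed_Bd ha hb) (by rw [← horn_union hk]; exact Set.subset_union_left)
      (fun _ hp => hp.1) (horn_box ha hb k n) h2

end BoxAux

open BoxAux

theorem relEx_box {a b v : Pt} (ha : IsV a) (hb : IsV b) (hv : IsV v) (h : v ∈ Box a b) (n : ℤ) :
    RelEx O {v} (Box a b) n := by
  have e : ∀ c : Pt, mix Finset.univ c v = c := fun c => funext fun j => by simp [mix]
  have t := box_mix (O := O) ha hb hv h n Finset.univ
  rwa [e, e, box_self] at t

theorem relEx_box_empty {a b : Pt} (ha : IsV a) (hb : IsV b) (hn : n ≠ 0) :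
    RelEx O ∅ (Box a b) n := by
  rcases (Box a b).eq_empty_or_nonempty with h | ⟨p, hp⟩
  · rw [h]
    exact relEx_refl _ _
  · have h : a ∈ Box a b := fun j => ⟨le_rfl, (hp j).1.trans (hp j).2⟩
    exact RelEx.trans (closed_single ha) (Set.empty_subset _) (Set.singleton_subset_iff.2 h)
      (relEx_vertex ha hn) (relEx_box ha hb ha h n)

theorem relEx_bd_box {a b : Pt} (ha : IsV a) (hb : IsV b) (hab : ∀ j, a j ≤ b j)
    (hn : n < bdim a b) : RelEx O (Bd a b) (Box a b) n :=
  have _ := hab
  bd_box _ a b n ha hb rfl hn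

theorem relEx_bd {a b v : Pt} (ha : IsV a) (hb : IsV b) (hv : IsV v) (h : v ∈ Bd a b)
    (hn : n + 1 < bdim a b) : RelEx O {v} (Bd a b) n :=
  RelEx.down (closed_Bd ha hb) (Set.singleton_subset_iff.2 h) (fun _ hp => hp.1)
    (relEx_box ha hb hv h.1 n) (bd_box _ a b _ ha hb rfl hn)

theorem relEx_bd_empty {a b : Pt} (ha : IsV a) (hb : IsV b) (hab : ∀ j, a j ≤ b j) (hn0 : n ≠ 0)
    (hn : n + 1 < bdim a b) : RelEx O ∅ (Bd a b) n :=
  have _ := hab
  RelEx.down (closed_Bd ha hb) (Set.empty_subset _) (fun _ hp => hp.1)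
    (relEx_box_empty ha hb hn0) (bd_box _ a b _ ha hb rfl hn)

end Vale.Agent.P215Z.Coh
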