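import Vale.Agent.P215Z.Fm.Defs

/-!
# P215, cohomology of lattice complexes: definitions

Cells are points of the doubled lattice; an odd coordinate is an interval direction.  A form has
one polynomial for each cell and each set of directions.
-/

noncomputable section

namespace Vale.Agent.P215Z.Coh

open MvPolynomial Fm

/-- sets of directions -/
abbrev Ix : Type := Finset (Fin 4)

/-- forms of all degrees -/
abbrev Form (O : Type) [CommRing O] : Type := Pt → Ix → Py O

/-- the sign of the direction `i` in the set `I` -/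
def sgn (i : Fin 4) (I : Ix) : ℤ := (-1) ^ (I.filter (· < i)).card

variable {O : Type} [CommRing O]

/-- the exterior derivative in one cell -/
def dc (w : Ix → Py O) : Ix → Py O :=
  fun I => ∑ i ∈ I, sgn i I • pderiv i (w (I.erase i))

/-- the exterior derivative -/
def dd (ω : Form O) : Form O := fun p => dc (ω p)

/-- tangential compatible forms of degree `n` on `K` -/
structure IsForm (n : ℤ) (K : Set Pt) (ω : Form O) : Prop where
  deg : ∀ p ∈ K, ∀ I : Ix, (I.card : ℤ) ≠ n → ω p I = 0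
  cmp : ∀ I : Ix, CmpS K I fun p => ω p I

/-- the form vanishes on `K` -/
def Van (K : Set Pt) (ω : Form O) : Prop := ∀ p ∈ K, ω p = 0

/-- the forms agree on `K` -/
def Agr (K : Set Pt) (ω ω' : Form O) : Prop := ∀ p ∈ K, ω p = ω' p

/-- closed forms of degree `n` on `K'` which vanish on `K` are exact relative to `K` -/
def RelEx (O : Type) [CommRing O] (K K' : Set Pt) (n : ℤ) : Prop :=
  ∀ ω : Form O, IsForm n K' ω → Van K ω → Van K' (dd ω) →
    ∃ η : Form O, IsForm (n - 1) K' η ∧ Van K η ∧ Agr K' (dd η) ω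

/-- all coordinates are even -/
def IsV (v : Pt) : Prop := ∀ j, ¬ Odd (v j)

/-- the box with corners `a`, `b` -/
def Box (a b : Pt) : Set Pt := {p | ∀ j, a j ≤ p j ∧ p j ≤ b j}

/-- the boundary of the box -/
def Bd (a b : Pt) : Set Pt := {p | p ∈ Box a b ∧ ∃ j, a j < b j ∧ (p j = a j ∨ p j = b j)}

/-- the dimension of the box -/
def bdim (a b : Pt) : ℕ := (Finset.univ.filter fun j => a j < b j).card

/-- cells which are joined to `K` inside `K'` -/
inductive Reach (K K' : Set Pt) : Pt → Prop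
  | base (p : Pt) (h : p ∈ K) : Reach K K' p
  | face (p : Pt) (k : Fin 4) (s : Bool) (h : p ∈ K') (hk : Odd (p k)) (hr : Reach K K' p) :
      Reach K K' (fc p k s)
  | coface (p : Pt) (k : Fin 4) (s : Bool) (h : p ∈ K') (hk : Odd (p k))
      (hr : Reach K K' (fc p k s)) : Reach K K' p

/-- three-cells which leave `K'` through faces which are not in `K` -/
inductive Esc (K K' : Set Pt) : Pt → Prop
  | out (p : Pt) (k : Fin 4) (s : Bool) (hk : k ≠ 3) (h : fc p k s ∉ K)
      (h' : fc (fc p k s) k s ∉ K') : Esc K K' p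
  | step (p : Pt) (k : Fin 4) (s : Bool) (hk : k ≠ 3) (h : fc p k s ∉ K)
      (hr : Esc K K' (fc (fc p k s) k s)) : Esc K K' p

/-- the level `h` -/
def Lv (h : ℤ) : Set Pt := {p | p 3 = h}

/-- the slab between the levels `0` and `h` -/
def Sl (h : ℤ) : Set Pt := {p | 0 ≤ p 3 ∧ p 3 ≤ h}

/-- the projection to the level `0` -/
def bot (p : Pt) : Pt := Function.update p 3 0

/-- sets which do not depend on the last coordinate -/
def IsCyl (A : Set Pt) : Prop := ∀ p (t : ℤ), p ∈ A ↔ Function.update p 3 t ∈ A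

/-- forms which are pulled back from the level `0` -/
def Inv (K : Set Pt) (ω : Form O) : Prop := ∀ p ∈ K, ω p = ω (bot p)

/-- exactness for pairs of forms which agree on `S` -/
def PairEx (O : Type) [CommRing O] (K K' S : Set Pt) (n : ℤ) : Prop :=
  ∀ ω ω' : Form O, IsForm n K ω → IsForm n K' ω' → Van K (dd ω) → Van K' (dd ω') → Inv K' ω' →
    Agr S ω ω' → ∃ η η' : Form O, IsForm (n - 1) K η ∧ IsForm (n - 1) K' η' ∧ Inv K' η' ∧
      Agr S η η' ∧ Agr K (dd η) ω ∧ Agr K' (dd η') ω'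

/-- the cylinder over the faces of the cubes of `X` in the lowest layer -/
def Cy (X : Set Pt) : Set Pt := {p | ∃ q ∈ X, q 3 = 0 ∧ ∀ j, j ≠ 3 → |p j - cell q j| ≤ 1}

/-- cubes of the lowest layer which leave the box through cubes outside of the chart -/
inductive Out (N : ℕ) : Pt → Prop
  | base (q : Pt) (h : ¬ InBox N 0 boxHi q) : Out N q
  | step (q : Pt) (k : Fin 4) (s : Bool) (hk : k ≠ 3) (h : fc q k s ∉ Uc N)
      (hr : Out N (fc q k s)) : Out N q

/-- the lower corner of the box at the level `h` -/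
def lo3 (h : ℤ) : Pt := ![0, 0, 0, h]

/-- the upper corner of the box at the level `h` -/
def hi3 (N : ℕ) (h : ℤ) : Pt := ![32 * N, 18 * N, 46 * N, h]

/-- the lower corner of the column of a leg at the level `h` -/
def cLo (N : ℕ) (l : Lg) (h : ℤ) : Pt := Function.update (fun j => 2 * N * org l j) 3 h

/-- the upper corner of the column of a leg at the level `h` -/
def cHi (N : ℕ) (l : Lg) (h : ℤ) : Pt := Function.update (fun j => 2 * N * (org l j + 3)) 3 h

/-- the three-cell at the level `h` over the cube `q` -/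
def c3 (h : ℤ) (q : Pt) : Pt := Function.update (cell q) 3 h

/-- closed matrix valued one-forms are exact, modulo ideals -/
def H1I (O : Type) [CommRing O] (K : Set Pt) (v : Pt) : Prop :=
  ∀ (b b' : Ideal O) (A : Conn O), Is1 K A → (∀ p ∈ K, ∀ i, A p i ∈ MC b) →
    (∀ p ∈ K, ∀ i j, d1 A p i j ∈ MC b') →
    ∃ f : Pt → Mt O, Cmp K ∅ f ∧ (∀ p, f p ∈ MC b) ∧ f v = 0 ∧
      ∀ p ∈ K, ∀ i, dM i (f p) - A p i ∈ MC b'

/-- closed matrix valued two-forms are exact, modulo ideals -/
def H2I (O : Type) [CommRing O] (K : Set Pt) : Prop :=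
  ∀ (b b' : Ideal O) (B : Pt → Fin 4 → Fin 4 → Mt O), Is2 K B →
    (∀ p ∈ K, ∀ i j, B p i j ∈ MC b) → (∀ p ∈ K, ∀ i j k, d2 B p i j k ∈ MC b') →
    ∃ η : Conn O, IsConn K b η ∧ ∀ p ∈ K, ∀ i j, d1 η p i j - B p i j ∈ MC b'

/-- closed pairs of matrix valued two-forms are exact, modulo ideals -/
def P2I (O : Type) [CommRing O] (K K' S : Set Pt) : Prop :=
  ∀ (b b' : Ideal O) (B B' : Pt → Fin 4 → Fin 4 → Mt O), Is2 K B → Is2 K' B' →
    (∀ p ∈ K, ∀ i j, B p i j ∈ MC b) → (∀ p ∈ K', ∀ i j, B' p i j ∈ MC b) →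
    (∀ p ∈ K, ∀ i j k, d2 B p i j k ∈ MC b') → (∀ p ∈ K', ∀ i j k, d2 B' p i j k ∈ MC b') →
    (∀ p ∈ K', ∀ i j, B' p i j - B' (bot p) i j ∈ MC b') →
    (∀ p ∈ S, ∀ i j, B p i j - B' p i j ∈ MC b') →
    ∃ η η' : Conn O, IsConn K b η ∧ IsConn K' b η' ∧ (∀ p ∈ K', η' p = η' (bot p)) ∧
      (∀ p ∈ S, η p = η' p) ∧ (∀ p ∈ K, ∀ i j, d1 η p i j - B p i j ∈ MC b') ∧
      ∀ p ∈ K', ∀ i j, d1 η' p i j - B' p i j ∈ MC b'

end Vale.Agent.P215Z.Coh
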