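import Vale.Agent.P215Z.Coh.Basic

/-!
# P215, cohomology of lattice complexes: the top degree in a level
-/

noncomputable section
namespace Vale.Agent.P215Z.Coh
open MvPolynomial Fm

variable {O : Type} [CommRing O] [Algebra ℚ O] {K K' K'' L : Set Pt} {n : ℤ} {ω ω' : Form O}

namespace EscP

/-- the three directions of a level -/
def I0 : Ix := {0, 1, 2}

/-- the form with one nonzero component -/
def one (p : Pt) (f : Py O) : Form O := Pi.single p (Pi.single I0 f)

/-- relatively exact three-forms -/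
def Ex (K K' : Set Pt) (ω : Form O) : Prop :=
  ∃ θ : Form O, IsForm 2 K' θ ∧ Van K θ ∧ Agr K' (dd θ) ω

omit [Algebra ℚ O] in
theorem Ex.congr (h : Ex K K' ω) (h' : Agr K' ω ω') : Ex K K' ω' := by
  obtain ⟨θ, a, b, c⟩ := h
  exact ⟨θ, a, b, fun p hp => (c p hp).trans (h' p hp)⟩

theorem Ex.zero : Ex K K' (0 : Form O) :=
  ⟨0, IsForm.zero _ _, fun _ _ => rfl, fun p _ => by rw [dd_zero]⟩

theorem Ex.add (h : Ex K K' ω) (h' : Ex K K' ω') : Ex K K' (ω + ω') := by
  obtain ⟨θ, a, b, c⟩ := h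
  obtain ⟨θ', a', b', c'⟩ := h'
  exact ⟨θ + θ', a.add a', fun p hp => by rw [Pi.add_apply, b p hp, b' p hp, add_zero],
    fun p hp => by rw [dd_add, Pi.add_apply, c p hp, c' p hp, Pi.add_apply]⟩

theorem Ex.sub (h : Ex K K' ω) (h' : Ex K K' ω') : Ex K K' (ω - ω') := by
  obtain ⟨θ, a, b, c⟩ := h
  obtain ⟨θ', a', b', c'⟩ := h'
  exact ⟨θ - θ', a.sub a', fun p hp => by rw [Pi.sub_apply, b p hp, b' p hp, sub_zero],
    fun p hp => by rw [dd_sub, Pi.sub_apply, c p hp, c' p hp, Pi.sub_apply]⟩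

theorem erase_eq : ∀ (k i : Fin 4) (I : Ix), k ≠ 3 → i ∈ I → I.erase i = I0.erase k →
    i = 3 ∨ (i = k ∧ I = I0) := by
  unfold I0
  decide

theorem mem_I0 : ∀ k : Fin 4, k ∈ I0 ↔ k ≠ 3 := by
  unfold I0
  decide

theorem card_erase : ∀ k : Fin 4, k ≠ 3 → (I0.erase k).card = 2 := by
  unfold I0
  decide

theorem card_three : ∀ I : Ix, I.card = 3 → I = I0 ∨ 3 ∈ I := by
  unfold I0
  decide

omit [Algebra ℚ O] in
theorem dc_single {k : Fin 4} (hk : k ≠ 3) {a : Py O} (ha : pderiv 3 a = 0) :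
    dc (Pi.single (I0.erase k) a) = Pi.single I0 (sgn k I0 • pderiv k a) := by
  funext I
  have key : ∀ i ∈ I, ¬ (i = k ∧ I = I0) →
      sgn i I • pderiv i ((Pi.single (I0.erase k) a : Ix → Py O) (I.erase i)) = 0 := by
    intro i hi h
    by_cases e : I.erase i = I0.erase k
    · rcases erase_eq k i I hk hi e with rfl | h'
      · rw [e, Pi.single_eq_same, ha, smul_zero]
      · exact absurd h' h
    · rw [Pi.single_eq_of_ne e, map_zero, smul_zero]
  by_cases hI : I = I0
  · subst hI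
    rw [dc, Finset.sum_eq_single_of_mem k ((mem_I0 k).2 hk) fun i hi h => key i hi fun e => h e.1,
      Pi.single_eq_same, Pi.single_eq_same]
  · rw [dc, Finset.sum_eq_zero fun i hi => key i hi fun e => hI e.2, Pi.single_eq_of_ne hI]

omit [Algebra ℚ O] in
theorem isForm_single {J : Ix} (hJ : J.card = 2) {φ : Pt → Py O} (h : CmpS K J φ) :
    IsForm 2 K fun x => (Pi.single J (φ x) : Ix → Py O) := by
  refine ⟨fun p _ I hI => Pi.single_eq_of_ne (fun e => hI (by rw [e, hJ]; rfl)) _, fun I => ?_⟩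
  by_cases e : I = J
  · subst e
    simpa only [Pi.single_eq_same] using h
  · simp only [Pi.single_eq_of_ne e]
    exact ⟨fun _ _ _ _ _ => rfl, fun _ _ _ _ => map_zero _, fun _ _ _ _ _ _ => map_zero _⟩

theorem odd_fc (p : Pt) (k : Fin 4) (s : Bool) : Odd (fc p k s k) ↔ ¬ Odd (p k) := by
  rw [fc_self, Int.odd_iff, Int.odd_iff]
  split_ifs <;> omega

theorem fc_inj {p q : Pt} {k : Fin 4} {s : Bool} (h : fc p k s = fc q k s) : p = q := by
  rw [← fc_fc_not p k s, h, fc_fc_not]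

theorem fc_ne_not (p : Pt) (k : Fin 4) (s : Bool) : fc p k s ≠ fc p k (!s) := fun h => by
  have := congrFun h k
  rw [fc_self, fc_self] at this
  cases s <;> simp at this <;> omega

/-- the weight which is `1` on the near face and `0` on the far face -/
def wt (O : Type) [CommRing O] (k : Fin 4) (s : Bool) : Py O := if s then 1 - X k else X k

omit [Algebra ℚ O] in
theorem ev_wt (k : Fin 4) (s : Bool) : ev k s (wt O k s) = 0 := by
  cases s <;> simp [wt, ev, bv]

omit [Algebra ℚ O] in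
theorem ev_wt' (k : Fin 4) (s : Bool) : ev k (!s) (wt O k s) = 1 := by
  cases s <;> simp [wt, ev, bv]

omit [Algebra ℚ O] in
theorem pderiv_wt {k : Fin 4} (hk : k ≠ 3) (s : Bool) : pderiv 3 (wt O k s) = 0 := by
  cases s <;> simp [wt, pderiv_X, hk]

/-- the two-form which moves a component across a face -/
def mvF (p : Pt) (k : Fin 4) (s : Bool) (g : Py O) : Pt → Py O :=
  Pi.single p g + Pi.single (fc p k s) (ev k s g) +
    Pi.single (fc (fc p k s) k s) (wt O k s * ev k s g)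

omit [Algebra ℚ O] in
theorem cmp_mvF {h : ℤ} (hh : ¬ Odd h) (hL : K' ⊆ Lv h) {p : Pt} (hp : ∀ j, j ≠ 3 → Odd (p j))
    {k : Fin 4} (hk : k ≠ 3) (s : Bool) {g : Py O} (h3 : pderiv 3 g = 0) (hg : ev k (!s) g = 0) :
    CmpS K' (I0.erase k) (mvF p k s g) := by
  have hq : ¬ Odd (fc p k s k) := fun e => (odd_fc p k s).1 e (hp k hk)
  have hp' : Odd (fc (fc p k s) k s k) := (odd_fc _ k s).2 hq
  have e3 : pderiv 3 (ev k s g) = 0 := by rw [pderiv_ev_ne hk.symm, h3, map_zero]
  have n1 : ∀ x : Pt, ∀ j, j ≠ 3 → ¬ Odd (x j) → x ≠ p := fun x j h1 h2 e => h2 (e ▸ hp j h1)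
  have n2 : ∀ x : Pt, ∀ j, j ≠ 3 → j ≠ k → ¬ Odd (x j) → x ≠ fc p k s := fun x j h1 h1' h2 e =>
    h2 (by rw [e, fc_ne _ h1']; exact hp j h1)
  have n3 : ∀ x : Pt, ∀ j, j ≠ 3 → ¬ Odd (x j) → x ≠ fc (fc p k s) k s := fun x j h1 h2 e => by
    by_cases h1' : j = k
    · exact h2 (by rw [e, h1']; exact hp')
    · exact h2 (by rw [e, fc_ne _ h1', fc_ne _ h1']; exact hp j h1)
  refine ⟨fun x _ i hi hx => ?_, fun x _ j hx => ?_, fun x hK j hj hx ε => ?_⟩
  · obtain ⟨a, b⟩ := Finset.mem_erase.1 hi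
    have c := (mem_I0 i).1 b
    simp only [mvF, Pi.add_apply, Pi.single_eq_of_ne (n1 x i c hx),
      Pi.single_eq_of_ne (n2 x i c a hx), Pi.single_eq_of_ne (n3 x i c hx), add_zero]
  · by_cases hj : j = 3
    · subst hj
      simp only [mvF, Pi.add_apply, Pi.single_apply, map_add]
      split_ifs <;> simp [h3, e3, pderiv_wt hk]
    · simp only [mvF, Pi.add_apply, Pi.single_eq_of_ne (n1 x j hj hx),
        Pi.single_eq_of_ne (n3 x j hj hx), add_zero, zero_add]
      by_cases hjk : j = k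
      · rw [Pi.single_apply, hjk]
        split_ifs
        · exact pderiv_ev_self _ _ _
        · exact map_zero _
      · rw [Pi.single_eq_of_ne (n2 x j hj hjk hx), map_zero]
  · have j3 : j ≠ 3 := fun e => hh (by rw [← show x 3 = h from hL hK, ← e]; exact hx)
    obtain rfl : j = k := by
      by_contra e
      exact hj (Finset.mem_erase.2 ⟨e, (mem_I0 j).2 j3⟩)
    have a : ¬ Odd (fc x j ε j) := fun e => (odd_fc x j ε).1 e hx
    have b : x ≠ fc p j s := fun e => hq (e ▸ hx)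
    have c : p ≠ fc (fc p j s) j s := fun e =>
      fc_ne_not (fc p j s) j s (by rw [fc_fc_not, ← e])
    simp only [mvF, Pi.add_apply, Pi.single_eq_of_ne (n1 _ j hk a),
      Pi.single_eq_of_ne (n3 _ j hk a), Pi.single_eq_of_ne b, add_zero, zero_add]
    by_cases e1 : x = p
    · subst e1
      rw [Pi.single_eq_same, Pi.single_eq_of_ne c, add_zero]
      rcases Bool.eq_or_eq_not ε s with rfl | rfl
      · rw [Pi.single_eq_same]
      · rw [Pi.single_eq_of_ne (fc_ne_not x j s).symm, hg]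
    · rw [Pi.single_eq_of_ne e1, zero_add]
      by_cases e2 : x = fc (fc p j s) j s
      · subst e2
        rw [Pi.single_eq_same, map_mul, ev_ev_self]
        rcases Bool.eq_or_eq_not ε s with rfl | rfl
        · rw [ev_wt, zero_mul, Pi.single_eq_of_ne fun e => c (fc_inj e).symm]
        · rw [ev_wt', one_mul, fc_fc_not, Pi.single_eq_same]
      · rw [Pi.single_eq_of_ne e2, map_zero, Pi.single_eq_of_ne]
        intro e
        rcases Bool.eq_or_eq_not ε s with rfl | rfl
        · exact e1 (fc_inj e)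
        · exact e2 (by rw [← e, ← fc_fc_not x j (!s), Bool.not_not]; simp [fc_fc_not])

theorem move {h : ℤ} (hh : ¬ Odd h) (hK : Closed K) (hL : K' ⊆ Lv h) {p : Pt} (hpK : p ∉ K)
    (hp : ∀ j, j ≠ 3 → Odd (p j)) {k : Fin 4} (hk : k ≠ 3) {s : Bool} (hq : fc p k s ∉ K)
    {f : Py O} (hf : pderiv 3 f = 0) : fc (fc p k s) k s ∉ K ∧
      (∀ j, j ≠ 3 → Odd (fc (fc p k s) k s j)) ∧
      ∃ f' : Py O, pderiv 3 f' = 0 ∧ Ex K K' (one p f + one (fc (fc p k s) k s) f') := by
  have hp' : Odd (fc (fc p k s) k s k) :=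
    (odd_fc _ k s).2 fun e => (odd_fc p k s).1 e (hp k hk)
  have hpK' : fc (fc p k s) k s ∉ K := fun e => hq (fc_fc_not (fc p k s) k s ▸ hK _ e k hp' (!s))
  refine ⟨hpK', fun j hj => ?_, ?_⟩
  · by_cases e : j = k
    · exact e ▸ hp'
    · rw [fc_ne _ e, fc_ne _ e]
      exact hp j hj
  set g : Py O := sgn k I0 • In k (!s) f with hg
  have g3 : pderiv 3 g = 0 := by rw [hg, map_zsmul, pderiv_In_ne hk.symm, hf, map_zero, smul_zero]
  have g0 : ev k (!s) g = 0 := by rw [hg, map_zsmul, ev_In, smul_zero]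
  have gk : sgn k I0 • pderiv k g = f := by
    rw [hg, map_zsmul, pderiv_In, smul_smul, sgn_mul_self, one_smul]
  have e3 : pderiv 3 (ev k s g) = 0 := by rw [pderiv_ev_ne hk.symm, g3, map_zero]
  have w3 : pderiv 3 (wt O k s * ev k s g) = 0 := by simp [e3, pderiv_wt hk]
  refine ⟨sgn k I0 • pderiv k (wt O k s * ev k s g),
    by rw [map_zsmul, pderiv_comm, w3, map_zero, smul_zero], _,
    isForm_single (card_erase k hk) (cmp_mvF hh hL hp hk s g3 g0), fun x hx => ?_, fun x hx => ?_⟩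
  · have a : x ≠ p := fun e => hpK (e ▸ hx)
    have b : x ≠ fc p k s := fun e => hq (e ▸ hx)
    have c : x ≠ fc (fc p k s) k s := fun e => hpK' (e ▸ hx)
    simp only [mvF, Pi.add_apply, Pi.single_eq_of_ne a, Pi.single_eq_of_ne b, Pi.single_eq_of_ne c,
      add_zero, Pi.single_zero]
  · have x3 : ¬ Odd (x 3) := by rwa [show x 3 = h from hL hx]
    rw [dd, dc_single hk ((cmp_mvF hh hL hp hk s g3 g0).cst x hx 3 x3)]
    simp only [mvF, one, Pi.add_apply, map_add, smul_add, Pi.single_add]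
    have t : ∀ (y : Pt) (a : Py O), (Pi.single I0 (sgn k I0 • pderiv k
        ((Pi.single y a : Pt → Py O) x)) : Ix → Py O) =
        (Pi.single y (Pi.single I0 (sgn k I0 • pderiv k a)) : Form O) x := fun y a => by
      by_cases e : x = y
      · rw [e, Pi.single_eq_same, Pi.single_eq_same]
      · rw [Pi.single_eq_of_ne e, Pi.single_eq_of_ne e, map_zero, smul_zero, Pi.single_zero]
    rw [t, t, t, gk, pderiv_ev_self, smul_zero, Pi.single_zero, Pi.single_zero, Pi.zero_apply,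
      add_zero]

theorem ex_one {h : ℤ} (hh : ¬ Odd h) (hK : Closed K) (hL : K' ⊆ Lv h) {p : Pt} (hE : Esc K K' p) :
    p ∉ K → (∀ j, j ≠ 3 → Odd (p j)) → ∀ f : Py O, pderiv 3 f = 0 → Ex K K' (one p f) := by
  induction hE with
  | out p k s hk h1 h2 =>
    intro hpK hp f hf
    obtain ⟨-, -, f', -, a⟩ := move (K' := K') hh hK hL hpK hp hk h1 hf
    refine a.congr fun x hx => ?_
    have e : x ≠ fc (fc p k s) k s := fun e => h2 (e ▸ hx)
    rw [Pi.add_apply, one, one, Pi.single_eq_of_ne e, add_zero]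
  | step p k s hk h1 _ ih =>
    intro hpK hp f hf
    obtain ⟨b, c, f', d, a⟩ := move (K' := K') hh hK hL hpK hp hk h1 hf
    exact (a.sub (ih b c f' d)).congr fun x _ => by rw [add_sub_cancel_right]

theorem ex_sum {S : Finset Pt} {F : Pt → Form O} (h : ∀ p ∈ S, Ex K K' (F p)) :
    Ex K K' (∑ p ∈ S, F p) :=
  Finset.sum_induction F (Ex K K') (fun _ _ => Ex.add) Ex.zero h

end EscP

open EscP in
/-- top degree in a three dimensional level -/
theorem relEx_esc {h : ℤ} (hh : ¬ Odd h) (hK : Closed K) (hK' : Closed K') (hKK : K ⊆ K')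
    (hL : K' ⊆ Lv h) (hf : K'.Finite)
    (hE : ∀ p ∈ K', p ∉ K → (∀ j, j ≠ 3 → Odd (p j)) → Esc K K' p) : RelEx O K K' 3 := by
  intro ω hω hv _
  have x3 : ∀ x ∈ K', ¬ Odd (x 3) := fun x hx => by rwa [show x 3 = h from hL hx]
  have z : ∀ p : Pt, ω p I0 = 0 → Ex K K' (one p (ω p I0)) := fun p e => by
    rw [e, one, Pi.single_zero, Pi.single_zero]
    exact Ex.zero
  have key : Ex K K' (∑ p ∈ hf.toFinset, one p (ω p I0)) := ex_sum fun p hp => by
    rw [hf.mem_toFinset] at hp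
    by_cases a : p ∈ K
    · exact z p (by rw [hv p a]; rfl)
    by_cases b : ∀ j, j ≠ 3 → Odd (p j)
    · exact ex_one hh hK hL (hE p hp a b) a b _ ((hω.cmp I0).cst p hp 3 (x3 p hp))
    · push Not at b
      obtain ⟨j, b, c⟩ := b
      exact z p ((hω.cmp I0).zero p hp j ((mem_I0 j).2 b) c)
  refine key.congr fun x hx => ?_
  rw [Finset.sum_apply, Finset.sum_eq_single_of_mem x (hf.mem_toFinset.2 hx)
    fun y _ e => Pi.single_eq_of_ne e.symm _, one, Pi.single_eq_same]
  funext I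
  by_cases e : I = I0
  · rw [e, Pi.single_eq_same]
  · rw [Pi.single_eq_of_ne e]
    by_cases c : I.card = 3
    · exact ((hω.cmp I).zero x hx 3 ((card_three I c).resolve_left e) (x3 x hx)).symm
    · exact (hω.deg x hx I fun d => c (by exact_mod_cast d)).symm

end Vale.Agent.P215Z.Coh
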