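import Vale.Agent.P215Z.Coh.Basic

/-!
# P215, cohomology of lattice complexes: extension of forms
-/

noncomputable section
namespace Vale.Agent.P215Z.Coh
open MvPolynomial Fm

variable {O : Type} [CommRing O] [Algebra ℚ O] {K K' K'' L : Set Pt} {n : ℤ} {ω ω' : Form O}

/-- interpolation of boundary values in one cell -/
theorem interp (T S : Finset (Fin 4)) (hST : Disjoint S T) (g : Fin 4 → Bool → Py O)
    (h1 : ∀ k ∈ T, ∀ s, pderiv k (g k s) = 0)
    (h2 : ∀ j ∈ T, ∀ k ∈ T, j ≠ k → ∀ s t, ev j s (g k t) = ev k t (g j s))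
    (h3 : ∀ i ∈ S, ∀ k ∈ T, ∀ s, pderiv i (g k s) = 0) :
    ∃ f : Py O, (∀ k ∈ T, ∀ s, ev k s f = g k s) ∧ ∀ i ∈ S, pderiv i f = 0 := by
  induction T using Finset.induction_on with
  | empty => exact ⟨0, by simp, by simp⟩
  | insert k T hk ih =>
    have hm := Finset.mem_insert_self k T
    have hs : ∀ j ∈ T, j ∈ insert k T := fun j hj => Finset.mem_insert_of_mem hj
    obtain ⟨f, hf, hf'⟩ := ih (hST.mono_right (Finset.subset_insert k T))
      (fun j hj => h1 j (hs j hj)) (fun i hi j hj => h2 i (hs i hi) j (hs j hj))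
      (fun i hi j hj => h3 i hi j (hs j hj))
    refine ⟨f + (1 - X k) * (g k false - ev k false f) + X k * (g k true - ev k true f),
      fun j hj s => ?_, fun i hi => ?_⟩
    · rcases Finset.mem_insert.1 hj with rfl | hj
      · simp only [map_add, map_mul, map_sub, map_one, ev_X_self, ev_ev_self,
          ev_of_pderiv (h1 j hm _)]
        cases s <;> simp
      · have hjk : j ≠ k := fun e => hk (e ▸ hj)
        have e : ∀ t, ev j s (g k t - ev k t f) = 0 := fun t => by
          rw [map_sub, ev_comm hjk, hf j hj, h2 j (hs j hj) k hm hjk, sub_self]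
        rw [map_add, map_add, map_mul, map_mul, e, e, mul_zero, mul_zero, add_zero, add_zero,
          hf j hj]
    · have hik : i ≠ k := fun e => Finset.disjoint_left.1 hST hi (e ▸ hm)
      have e : ∀ t, pderiv i (g k t - ev k t f) = 0 := fun t => by
        rw [map_sub, h3 i hi k hm, pderiv_ev_ne hik, hf' i hi, map_zero, sub_self]
      have e' : pderiv i (X k : Py O) = 0 := pderiv_X_of_ne hik.symm
      rw [map_add, map_add, pderiv_mul, pderiv_mul, e, e, hf' i hi, map_sub, e']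
      simp

namespace ExtAux

theorem not_odd_fc {p : Pt} {k : Fin 4} (h : Odd (p k)) (s : Bool) : ¬ Odd (fc p k s k) := by
  rw [fc_self, Int.odd_iff] at *
  cases s <;> simp <;> omega

/-- the value on one new cell -/
theorem cell {I : Ix} {w : Pt → Py O} (hw : CmpS L I w) {p : Pt}
    (hp : ∀ k, Odd (p k) → ∀ s, fc p k s ∈ L) :
    ∃ f : Py O, (∀ i ∈ I, ¬ Odd (p i) → f = 0) ∧ (∀ k, ¬ Odd (p k) → pderiv k f = 0) ∧
      ∀ k ∉ I, Odd (p k) → ∀ s, ev k s f = w (fc p k s) := by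
  classical
  by_cases h : ∃ i ∈ I, ¬ Odd (p i)
  · obtain ⟨i, hi, ho⟩ := h
    refine ⟨0, fun _ _ _ => rfl, fun _ _ => map_zero _, fun k hk hko s => ?_⟩
    have hik : i ≠ k := fun e => hk (e ▸ hi)
    rw [map_zero, hw.zero _ (hp k hko s) i hi (by rwa [fc_ne p hik])]
  · obtain ⟨f, hf, hf'⟩ := interp (Finset.univ.filter fun k => k ∉ I ∧ Odd (p k))
      (Finset.univ.filter fun k => ¬ Odd (p k))
      (Finset.disjoint_filter.2 fun _ _ a b => a b.2) (fun k s => w (fc p k s))
      (fun k hk s => by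
        have := (Finset.mem_filter.1 hk).2.2
        exact hw.cst _ (hp k this s) k (not_odd_fc this s))
      (fun j hj k hk hjk s t => by
        have a := (Finset.mem_filter.1 hj).2
        have b := (Finset.mem_filter.1 hk).2
        rw [hw.face _ (hp k b.2 t) j a.1 (by rw [fc_ne p hjk]; exact a.2),
          hw.face _ (hp j a.2 s) k b.1 (by rw [fc_ne p hjk.symm]; exact b.2), fc_comm])
      (fun i hi k hk s => by
        have a := (Finset.mem_filter.1 hi).2
        have b := (Finset.mem_filter.1 hk).2.2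
        have hik : i ≠ k := fun e => a (e ▸ b)
        exact hw.cst _ (hp k b s) i (by rwa [fc_ne p hik]))
    exact ⟨f, fun i hi ho => absurd ⟨i, hi, ho⟩ h,
      fun k hk => hf' k (Finset.mem_filter.2 ⟨Finset.mem_univ _, hk⟩),
      fun k hk ho => hf k (Finset.mem_filter.2 ⟨Finset.mem_univ _, hk, ho⟩)⟩

/-- one layer of new cells -/
theorem step {I : Ix} {w : Pt → Py O} (hw : CmpS L I w)
    (hp : ∀ p ∈ K, ∀ k, Odd (p k) → ∀ s, fc p k s ∈ L) :
    ∃ w' : Pt → Py O, CmpS K I w' ∧ ∀ p ∈ L, w' p = w p := by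
  classical
  have key : ∀ p, ∃ f : Py O, (p ∈ L → f = w p) ∧ (p ∈ K → (∀ i ∈ I, ¬ Odd (p i) → f = 0) ∧
      (∀ k, ¬ Odd (p k) → pderiv k f = 0) ∧
      ∀ k ∉ I, Odd (p k) → ∀ s, ev k s f = w (fc p k s)) := by
    intro p
    by_cases hL : p ∈ L
    · exact ⟨w p, fun _ => rfl, fun _ => ⟨hw.zero p hL, hw.cst p hL, hw.face p hL⟩⟩
    · by_cases hK : p ∈ K
      · obtain ⟨f, hf⟩ := cell hw (hp p hK)
        exact ⟨f, fun h => absurd h hL, fun _ => hf⟩
      · exact ⟨0, fun h => absurd h hL, fun h => absurd h hK⟩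
  choose w' h1 h2 using key
  refine ⟨w', ⟨fun p hK => (h2 p hK).1, fun p hK => (h2 p hK).2.1, fun p hK k hk ho s => ?_⟩, h1⟩
  rw [h1 _ (hp p hK k ho s)]
  exact (h2 p hK).2.2 k hk ho s

/-- the dimension of a cell -/
def dim (p : Pt) : ℕ := (Finset.univ.filter fun k => Odd (p k)).card

theorem dim_fc {p : Pt} {k : Fin 4} (h : Odd (p k)) (s : Bool) : dim (fc p k s) < dim p := by
  refine Finset.card_lt_card ((Finset.ssubset_iff_of_subset fun j hj => ?_).2
    ⟨k, by simpa using h, by simpa using not_odd_fc h s⟩)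
  have hj' := (Finset.mem_filter.1 hj).2
  refine Finset.mem_filter.2 ⟨Finset.mem_univ _, ?_⟩
  by_cases e : j = k
  · rwa [e]
  · rwa [fc_ne p e] at hj'

theorem dim_lt (p : Pt) : dim p < 5 :=
  Nat.lt_succ_of_le ((Finset.card_filter_le _ _).trans (by simp))

theorem ext_cmp {I : Ix} {w : Pt → Py O} (hK : Closed K) (hw : CmpS K I w) (m : ℕ) :
    ∃ w' : Pt → Py O, CmpS (K ∪ {p | dim p < m}) I w' ∧ ∀ p ∈ K, w' p = w p := by
  induction m with
  | zero => exact ⟨w, by simpa using hw, fun _ _ => rfl⟩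
  | succ m ih =>
    obtain ⟨w₁, h1, h2⟩ := ih
    obtain ⟨w₂, h3, h4⟩ := step (K := K ∪ {p | dim p < m + 1}) h1 (by
      rintro p (hp | hp) k hk s
      · exact Or.inl (hK p hp k hk s)
      · exact Or.inr (lt_of_lt_of_le (dim_fc hk s) (Nat.lt_succ_iff.1 hp)))
    exact ⟨w₂, h3, fun p hp => (h4 p (Or.inl hp)).trans (h2 p hp)⟩

end ExtAux

/-- forms extend from a complex to the whole lattice -/
theorem IsForm.ext (hK : Closed K) (h : IsForm n K ω) :
    ∃ θ : Form O, IsForm n Set.univ θ ∧ Agr K θ ω := by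
  have key : ∀ I : Ix, ∃ w : Pt → Py O, CmpS Set.univ I w ∧ (∀ p ∈ K, w p = ω p I) ∧
      ((I.card : ℤ) ≠ n → ∀ p, w p = 0) := by
    intro I
    by_cases hI : (I.card : ℤ) = n
    · obtain ⟨w, h1, h2⟩ := ExtAux.ext_cmp hK (h.cmp I) 5
      have e : K ∪ {p | ExtAux.dim p < 5} = Set.univ :=
        Set.eq_univ_of_forall fun p => Or.inr (ExtAux.dim_lt p)
      rw [e] at h1
      exact ⟨w, h1, h2, fun e => absurd hI e⟩
    · exact ⟨fun _ => 0, ⟨fun _ _ _ _ _ => rfl, fun _ _ _ _ => map_zero _,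
        fun _ _ _ _ _ _ => map_zero _⟩, fun p hp => (h.deg p hp I hI).symm, fun _ _ => rfl⟩
  choose w h1 h2 h3 using key
  exact ⟨fun p I => w I p, ⟨fun p _ I hI => h3 I hI p, h1⟩, fun p hp => funext fun I => h2 I p hp⟩

end Vale.Agent.P215Z.Coh
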