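import Vale.Agent.P215Z.Coh.Sweep

/-!
# P215, cohomology of lattice complexes: pairs of forms on two cylinders
-/

noncomputable section
namespace Vale.Agent.P215Z.Coh
open MvPolynomial Fm

variable {O : Type} [CommRing O] [Algebra ℚ O] {K K' K'' L : Set Pt} {n : ℤ} {ω ω' : Form O}

namespace Pair

theorem bot_three (p : Pt) : bot p 3 = 0 := by simp [bot]

theorem bot_ne (p : Pt) {j : Fin 4} (h : j ≠ 3) : bot p j = p j := by simp [bot, h]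

theorem bot_bot (p : Pt) : bot (bot p) = bot p := by simp [bot]

theorem bot_of_lv {p : Pt} (h : p ∈ Lv 0) : bot p = p := by
  have h' : p 3 = 0 := h
  unfold bot
  rw [← h', Function.update_eq_self]

theorem fc_three (p : Pt) (s : Bool) : fc p 3 s = Function.update p 3 (fc p 3 s 3) := by
  funext j
  by_cases h : j = 3
  · subst h; simp
  · rw [Function.update_of_ne h, fc_ne p h]

theorem bot_fc_three (p : Pt) (s : Bool) : bot (fc p 3 s) = bot p := by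
  rw [fc_three]; simp [bot]

theorem bot_fc (p : Pt) {k : Fin 4} (hk : k ≠ 3) (s : Bool) : bot (fc p k s) = fc (bot p) k s := by
  funext j
  by_cases h : j = 3
  · subst h
    rw [bot_three, fc_ne _ hk.symm, bot_three]
  · rw [bot_ne _ h]
    by_cases h' : j = k
    · subst h'
      rw [fc_self, fc_self, bot_ne _ h]
    · rw [fc_ne _ h', fc_ne _ h', bot_ne _ h]

theorem cyl_fc {A : Set Pt} (cA : IsCyl A) (p : Pt) (s : Bool) : fc p 3 s ∈ A ↔ p ∈ A := by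
  rw [fc_three]; exact (cA p _).symm

theorem even_bot {p : Pt} {k : Fin 4} (h : ¬ Odd (p k)) : ¬ Odd (bot p k) := by
  by_cases hk : k = 3
  · subst hk; rw [bot_three]; decide
  · rwa [bot_ne _ hk]

/-- the pull back of a form on the lowest level -/
theorem isForm_pr {U : Set Pt} (cU : IsCyl U) {β : Form O} (h : IsForm n (U ∩ Lv 0) β) :
    IsForm n U fun p => β (bot p) := by
  have hm : ∀ p ∈ U, bot p ∈ U ∩ Lv 0 := fun p hp => ⟨(cU p 0).1 hp, bot_three p⟩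
  refine ⟨fun p hp I hI => h.deg _ (hm p hp) I hI, fun I => ⟨?_, ?_, ?_⟩⟩
  · exact fun p hp i hi ho => (h.cmp I).zero _ (hm p hp) i hi (even_bot ho)
  · exact fun p hp k ho => (h.cmp I).cst _ (hm p hp) k (even_bot ho)
  · intro p hp k hk ho ε
    by_cases h3 : k = 3
    · subst h3
      rw [bot_fc_three]
      refine ev_of_pderiv ((h.cmp I).cst _ (hm p hp) 3 ?_) ε
      rw [bot_three]; decide
    · rw [bot_fc p h3]
      exact (h.cmp I).face _ (hm p hp) k hk (by rwa [bot_ne _ h3]) ε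

end Pair

open Pair in
/-- pairs of forms on two cylinders -/
theorem pairEx_cyl {A B C : Set Pt} {H : ℤ} (hH : ¬ Odd H) (hH0 : 0 < H)
    (hA : Closed A) (hB : Closed B) (hC : Closed C) (cA : IsCyl A) (cB : IsCyl B) (cC : IsCyl C)
    (h0 : RelEx O ∅ ((A ∪ B) ∩ Lv 0) n)
    (h1 : RelEx O (A ∩ B ∩ C ∩ Lv H) (A ∩ B ∩ Lv H) (n - 1)) :
    PairEx O (A ∩ Sl H) (B ∩ Sl H) (A ∩ B ∩ Sl H ∩ (C ∪ Lv 0 ∪ Lv H)) n := by
  intro ω ω' hω hω' dω dω' iω' ag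
  have c0 : Closed (Lv 0) := closed_Lv (by decide)
  have cH : Closed (Lv H) := closed_Lv hH
  have cS : Closed (Sl H) := closed_Sl hH
  have l0 : ∀ p ∈ Lv 0, p ∈ Sl H := fun p hp => by
    have h' : p 3 = 0 := hp
    exact ⟨h'.ge, by rw [h']; exact hH0.le⟩
  have lH : ∀ p ∈ Lv H, p ∈ Sl H := fun p hp => by
    have h' : p 3 = H := hp
    exact ⟨by rw [h']; exact hH0.le, h'.le⟩
  obtain ⟨θ, hθ, aθ, aθ'⟩ := IsForm.glue (closed_inter hA c0) (closed_inter hB c0)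
    (hω.mono fun p hp => ⟨hp.1, l0 p hp.2⟩) (hω'.mono fun p hp => ⟨hp.1, l0 p hp.2⟩)
    fun p hp => ag p ⟨⟨⟨hp.1.1, hp.2.1⟩, l0 p hp.1.2⟩, Or.inl (Or.inr hp.1.2)⟩
  rw [← Set.union_inter_distrib_right] at hθ
  obtain ⟨β, hβ, -, aβ⟩ := h0 θ hθ (fun p hp => absurd hp (Set.notMem_empty p)) (by
    rintro p ⟨hp | hp, hp0⟩
    · exact (aθ.dd p ⟨hp, hp0⟩).trans (dω p ⟨hp, l0 p hp0⟩)
    · exact (aθ'.dd p ⟨hp, hp0⟩).trans (dω' p ⟨hp, l0 p hp0⟩))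
  have cU : IsCyl (A ∪ B) := fun p t => or_congr (cA p t) (cB p t)
  have hpr := isForm_pr cU hβ
  set γ : Form O := fun p => β (bot p) with hγ
  have dγ : ∀ p ∈ A ∪ B, dd γ p = θ (bot p) := fun p hp =>
    aβ (bot p) ⟨(cU p 0).1 hp, bot_three p⟩
  have dγ' : Agr (B ∩ Sl H) (dd γ) ω' := fun p hp => by
    rw [dγ p (Or.inr hp.1), aθ' (bot p) ⟨(cB p 0).1 hp.1, bot_three p⟩, ← iω' p hp]
  have hγA : IsForm (n - 1) (A ∩ Sl H) γ := hpr.mono fun p hp => Or.inl hp.1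
  have hdγ : IsForm n (A ∩ Sl H) (dd γ) := by
    have h := hγA.dd
    rwa [sub_add_cancel] at h
  have cK0 : Closed ((A ∩ B ∩ C ∩ Sl H) ∪ (A ∩ Lv 0)) :=
    closed_union (closed_inter (closed_inter (closed_inter hA hB) hC) cS) (closed_inter hA c0)
  have cL : Closed (A ∩ B ∩ Lv H) := closed_inter (closed_inter hA hB) cH
  have s0 : (A ∩ B ∩ C ∩ Sl H) ∪ (A ∩ Lv 0) ⊆ A ∩ Sl H := by
    rintro p (hp | hp)
    · exact ⟨hp.1.1.1, hp.2⟩
    · exact ⟨hp.1, l0 p hp.2⟩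
  have r0 : RelEx O ((A ∩ B ∩ C ∩ Sl H) ∪ (A ∩ Lv 0)) (A ∩ Sl H) n := by
    refine relEx_sweep cK0 (closed_inter hA cS) s0 3 true ?_ ?_ ⟨H, ?_⟩ n
    · rintro p hp hn - (hq | hq)
      · exact hn (Or.inl ⟨⟨⟨hp.1, (cyl_fc cB p _).1 hq.1.1.2⟩, (cyl_fc cC p _).1 hq.1.2⟩, hp.2⟩)
      · have h2 : fc p 3 true 3 = 0 := hq.2
        have h3 : 0 ≤ p 3 := hp.2.1
        rw [fc_self, if_pos rfl] at h2
        omega
    · intro p hp hn _
      have h2 : p 3 ≠ 0 := fun h => hn (Or.inr ⟨hp.1, h⟩)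
      have h3 : 0 ≤ p 3 := hp.2.1
      have h4 : p 3 ≤ H := hp.2.2
      have h5 : fc p 3 (!true) 3 = p 3 - 1 := by rw [fc_self]; rfl
      exact ⟨(cyl_fc cA p _).2 hp.1, by rw [h5]; omega, by rw [h5]; omega⟩
    · intro p hp _
      rw [abs_of_nonneg hp.2.1]
      exact hp.2.2
  have r1 : RelEx O ((A ∩ B ∩ C ∩ Sl H) ∪ (A ∩ Lv 0))
      ((A ∩ B ∩ C ∩ Sl H) ∪ (A ∩ Lv 0) ∪ (A ∩ B ∩ Lv H)) (n - 1) := by
    refine RelEx.glue_one cK0 cL ?_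
    have e : ((A ∩ B ∩ C ∩ Sl H) ∪ (A ∩ Lv 0)) ∩ (A ∩ B ∩ Lv H) = A ∩ B ∩ C ∩ Lv H := by
      ext p
      constructor
      · rintro ⟨hp | hp, hq⟩
        · exact ⟨hp.1, hq.2⟩
        · have h2 : p 3 = 0 := hp.2
          have h3 : p 3 = H := hq.2
          omega
      · exact fun hp => ⟨Or.inl ⟨hp.1, lH p hp.2⟩, hp.1.1, hp.2⟩
    rwa [e]
  have r2 := RelEx.up (closed_union cK0 cL) Set.subset_union_left
    (Set.union_subset s0 fun p hp => ⟨hp.1.1, lH p hp.2⟩) r0 r1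
  have vS : ∀ p ∈ A ∩ B ∩ Sl H ∩ (C ∪ Lv 0 ∪ Lv H), (ω - dd γ) p = 0 := fun p hp => by
    rw [Pi.sub_apply, ag p hp, dγ' p ⟨hp.1.1.2, hp.1.2⟩, sub_self]
  obtain ⟨η, hη, vη, aη⟩ := r2 (ω - dd γ) (hω.sub hdγ) (by
    rintro p ((hp | hp) | hp)
    · exact vS p ⟨⟨hp.1.1, hp.2⟩, Or.inl (Or.inl hp.1.2)⟩
    · rw [Pi.sub_apply, dγ p (Or.inl hp.1), bot_of_lv hp.2, aθ p hp, sub_self]
    · exact vS p ⟨⟨hp.1, lH p hp.2⟩, Or.inr hp.2⟩) (fun p hp => by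
      rw [dd_sub, dd_dd, sub_zero]; exact dω p hp)
  refine ⟨η + γ, γ, hη.add hγA, hpr.mono fun p hp => Or.inr hp.1, fun p _ => ?_, fun p hp => ?_,
    fun p hp => ?_, dγ'⟩
  · simp only [hγ, bot_bot]
  · have h2 : η p = 0 := by
      refine vη p ?_
      rcases hp.2 with (h | h) | h
      · exact Or.inl (Or.inl ⟨⟨hp.1.1, h⟩, hp.1.2⟩)
      · exact Or.inl (Or.inr ⟨hp.1.1.1, h⟩)
      · exact Or.inr ⟨hp.1.1, h⟩
    rw [Pi.add_apply, h2, zero_add]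
  · rw [dd_add, Pi.add_apply, aη p hp, Pi.sub_apply, sub_add_cancel]

end Vale.Agent.P215Z.Coh
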