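import Vale.Agent.P215Z.Coh.Cols

/-!
# P215, cohomology of lattice complexes: paths out of the box
-/

set_option linter.unusedVariables false

noncomputable section
namespace Vale.Agent.P215Z.Coh
open MvPolynomial Fm

variable {O : Type} [CommRing O] [Algebra ℚ O] {K K' K'' L : Set Pt} {n : ℤ} {ω ω' : Form O}

namespace PathAux

variable {N : ℕ} {h : ℤ} {p q : Pt} {k : Fin 4} {s : Bool}

theorem fc_at (p : Pt) (k : Fin 4) (s : Bool) (j : Fin 4) :
    fc p k s j = p j + if j = k then (if s then 1 else -1) else 0 := by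
  unfold fc ee
  by_cases e : j = k
  · subst e
    cases s <;> simp [sub_eq_add_neg]
  · cases s <;> simp [e]

theorem c3_at (h : ℤ) (q : Pt) {j : Fin 4} (hj : j ≠ 3) : c3 h q j = 2 * q j + 1 := by
  simp [c3, cell, hj]

theorem c3_three (h : ℤ) (q : Pt) : c3 h q 3 = h := by simp [c3]

theorem mem_box : p ∈ Box (lo3 h) (hi3 N h) ↔
    p 3 = h ∧ ∀ j, j ≠ 3 → 0 ≤ p j ∧ p j ≤ 2 * (N * boxHi j) := by
  simp only [Box, Set.mem_ofPred_eq, Fin.forall_fin_succ, lo3, hi3, boxHi]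
  simp
  omega

theorem inBox_iff (hN : 0 < N) (h3 : q 3 = 0) :
    InBox N 0 boxHi q ↔ ∀ j, j ≠ 3 → 0 ≤ q j ∧ q j < N * boxHi j := by
  refine ⟨fun k j _ => by simpa using k j, fun k j => ?_⟩
  by_cases e : j = 3
  · subst e
    rw [h3]
    simp [boxHi, hN]
  · simpa using k j e

theorem mem_bd (hN : 0 < N) (hp : p ∈ Box (lo3 h) (hi3 N h)) {j : Fin 4} (hj : j ≠ 3)
    (e : p j ≤ 0 ∨ 2 * (N * boxHi j) ≤ p j) : p ∈ Bd (lo3 h) (hi3 N h) := by
  refine ⟨hp, j, ?_⟩
  have := (mem_box.1 hp).2 j hj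
  fin_cases j <;> simp [lo3, hi3, boxHi] at hj e this ⊢ <;> omega

theorem fc_three (hk : k ≠ 3) : fc q k s 3 = q 3 := by
  rw [fc_at, if_neg hk.symm, add_zero]

theorem fc_fc_c3 (hk : k ≠ 3) : fc (fc (c3 h q) k s) k s = c3 h (fc q k s) := by
  funext j
  by_cases e : j = 3
  · subst e
    rw [fc_three hk, fc_three hk, c3_three, c3_three]
  · rw [fc_at, fc_at, c3_at _ _ e, c3_at _ _ e, fc_at]
    ring

theorem fc_c3_not (hk : k ≠ 3) : fc (c3 h (fc q k s)) k (!s) = fc (c3 h q) k s := by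
  funext j
  rw [← fc_fc_c3 hk, fc_at, fc_at (fc (c3 h q) k s)]
  by_cases e : j = k <;> cases s <;> simp [e]

theorem c3_mem_box (hN : 0 < N) (h3 : q 3 = 0) :
    c3 h q ∈ Box (lo3 h) (hi3 N h) ↔ InBox N 0 boxHi q := by
  rw [mem_box, inBox_iff hN h3]
  refine ⟨fun k j hj => ?_, fun k => ⟨c3_three _ _, fun j hj => ?_⟩⟩
  · have := k.2 j hj
    rw [c3_at _ _ hj] at this
    omega
  · have := k j hj
    rw [c3_at _ _ hj]
    omega

theorem face_notMem (hk : k ≠ 3) (h3 : q 3 = 0) {X : Set Pt} (hq : q ∉ X) (hq' : fc q k s ∉ X) :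
    fc (c3 h q) k s ∉ Cy X := by
  rintro ⟨r, hr, r3, hj⟩
  have e1 : ∀ j, j ≠ k → r j = q j := fun j e => by
    by_cases e' : j = 3
    · rw [e', r3, h3]
    · have := abs_le.1 (hj j e')
      rw [fc_at, if_neg e, c3_at _ _ e', cell] at this
      omega
  have e2 := abs_le.1 (hj k hk)
  rw [fc_at, if_pos rfl, c3_at _ _ hk, cell] at e2
  by_cases e3 : r k = q k
  · refine hq ?_
    have : r = q := funext fun j => by
      by_cases e : j = k
      · rw [e, e3]
      · exact e1 j e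
    exact this ▸ hr
  · refine hq' ?_
    have : r = fc q k s := funext fun j => by
      rw [fc_at]
      by_cases e : j = k
      · rw [e, if_pos rfl]
        cases s <;> simp at e2 ⊢ <;> omega
      · rw [if_neg e, add_zero, e1 j e]
    exact this ▸ hr

theorem esc_c3 (hN : 0 < N) (ho : Out N q) (h3 : q 3 = 0) (hq : q ∉ Uc N)
    (hb : InBox N 0 boxHi q) : Esc (Cy (Uc N) ∩ Lv h) (Box (lo3 h) (hi3 N h)) (c3 h q) := by
  induction ho with
  | base q k => exact absurd hb k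
  | step q k s hk hq' _ ih =>
    have e3 : fc q k s 3 = 0 := (fc_three hk).trans h3
    have hf : fc (c3 h q) k s ∉ Cy (Uc N) ∩ Lv h := fun j => face_notMem hk h3 hq hq' j.1
    by_cases hb' : InBox N 0 boxHi (fc q k s)
    · exact Esc.step _ k s hk hf (fc_fc_c3 hk ▸ ih e3 hq' hb')
    · exact Esc.out _ k s hk hf (by rwa [fc_fc_c3 hk, c3_mem_box hN e3])

/-- faces at the level `h` of the column over the cube `q` -/
def Near (h : ℤ) (q p : Pt) : Prop := p 3 = h ∧ ∀ j, j ≠ 3 → |p j - cell q j| ≤ 1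

theorem near_c3 (h : ℤ) (q : Pt) : Near h q (c3 h q) :=
  ⟨c3_three _ _, fun j hj => by simp [c3_at _ _ hj, cell]⟩

theorem Near.mem (hN : 0 < N) (hp : Near h q p) (h3 : q 3 = 0) (hq : q ∉ Uc N)
    (hb : InBox N 0 boxHi q) : p ∈ Cy (Uc N)ᶜ ∩ Box (lo3 h) (hi3 N h) := by
  refine ⟨⟨q, hq, h3, hp.2⟩, mem_box.2 ⟨hp.1, fun j hj => ?_⟩⟩
  have k1 := abs_le.1 (hp.2 j hj)
  have k2 := (inBox_iff hN h3).1 hb j hj
  rw [cell] at k1
  omega

theorem reach_c3 (hN : 0 < N) (ho : Out N q) (h3 : q 3 = 0) (hq : q ∉ Uc N)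
    (hb : InBox N 0 boxHi q) :
    Reach (Bd (lo3 h) (hi3 N h)) (Cy (Uc N)ᶜ ∩ Box (lo3 h) (hi3 N h)) (c3 h q) := by
  induction ho with
  | base q k => exact absurd hb k
  | step q k s hk hq' _ ih =>
    have e3 : fc q k s 3 = 0 := (fc_three hk).trans h3
    refine Reach.coface _ k s ((near_c3 h q).mem hN h3 hq hb) ⟨q k, c3_at _ _ hk⟩ ?_
    by_cases hb' : InBox N 0 boxHi (fc q k s)
    · rw [← fc_c3_not hk]
      exact Reach.face _ k _ ((near_c3 h _).mem hN e3 hq' hb') ⟨_, c3_at _ _ hk⟩ (ih e3 hq' hb')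
    · have hn : Near h q (fc (c3 h q) k s) := ⟨(fc_three hk).trans (c3_three _ _), fun j hj => by
        rw [fc_at, c3_at _ _ hj, cell]
        by_cases e : j = k <;> cases s <;> simp [e]⟩
      refine Reach.base _ (mem_bd hN (hn.mem hN h3 hq hb).2 hk ?_)
      rw [fc_at, if_pos rfl, c3_at _ _ hk]
      by_contra hc
      refine hb' ((inBox_iff hN e3).2 fun j hj => ?_)
      have := (inBox_iff hN h3).1 hb j hj
      rw [fc_at]
      by_cases e : j = k
      · subst e
        cases s <;> simp at hc ⊢ <;> omega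
      · rwa [if_neg e, add_zero]

theorem reach_update {B C : Set Pt} (hC : ∀ r, Near h q r → r ∈ C) {r : Pt} (hr : Near h q r)
    (hR : Reach B C r) {j : Fin 4} (hj : j ≠ 3) (e : r j = cell q j) {x : ℤ}
    (hx : |x - cell q j| ≤ 1) :
    Near h q (Function.update r j x) ∧ Reach B C (Function.update r j x) := by
  refine ⟨⟨by rw [Function.update_of_ne hj.symm, hr.1], fun i hi => ?_⟩, ?_⟩
  · by_cases e' : i = j
    · rwa [e', Function.update_self]
    · rw [Function.update_of_ne e']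
      exact hr.2 i hi
  · by_cases e1 : x = r j
    · rwa [e1, Function.update_eq_self]
    · have : Function.update r j x = fc r j (decide (r j < x)) := funext fun i => by
        rw [fc_at]
        by_cases e' : i = j
        · have := abs_le.1 hx
          rw [e', Function.update_self, if_pos rfl]
          by_cases e2 : r j < x <;> simp [e2] <;> omega
        · rw [Function.update_of_ne e', if_neg e', add_zero]
      rw [this]
      exact Reach.face _ _ _ (hC r hr) ⟨q j, e⟩ hR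

end PathAux

open PathAux

theorem reach_C {N : ℕ} (hN : 0 < N) {h : ℤ} (hh : ¬ Odd h) :
    ∀ p ∈ Cy (Uc N)ᶜ ∩ Box (lo3 h) (hi3 N h),
      Reach (Bd (lo3 h) (hi3 N h)) (Cy (Uc N)ᶜ ∩ Box (lo3 h) (hi3 N h)) p := by
  rintro p ⟨⟨q, hq, h3, hj⟩, hp⟩
  by_cases hb : InBox N 0 boxHi q
  · have hC : ∀ r, Near h q r → r ∈ Cy (Uc N)ᶜ ∩ Box (lo3 h) (hi3 N h) :=
      fun r hr => hr.mem hN h3 hq hb
    obtain ⟨n0, r0⟩ := reach_update hC (near_c3 h q) (reach_c3 hN (out_all hN q h3 hq) h3 hq hb)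
      (j := 0) (by decide) (c3_at _ _ (by decide)) (hj 0 (by decide))
    obtain ⟨n1, r1⟩ := reach_update hC n0 r0 (j := 1) (by decide)
      (by rw [Function.update_of_ne (by decide)]; exact c3_at _ _ (by decide)) (hj 1 (by decide))
    obtain ⟨-, r2⟩ := reach_update hC n1 r1 (j := 2) (by decide)
      (by
        rw [Function.update_of_ne (by decide), Function.update_of_ne (by decide)]
        exact c3_at _ _ (by decide)) (hj 2 (by decide))
    convert r2 using 1
    funext j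
    fin_cases j <;> simp [c3_three, (mem_box.1 hp).1]
  · rw [inBox_iff hN h3] at hb
    push Not at hb
    obtain ⟨j, j3, k⟩ := hb
    refine Reach.base _ (mem_bd hN hp j3 ?_)
    have := abs_le.1 (hj j j3)
    rw [cell] at this
    omega

theorem esc_U {N : ℕ} (hN : 0 < N) {h : ℤ} (hh : ¬ Odd h) :
    ∀ p ∈ Box (lo3 h) (hi3 N h), p ∉ Cy (Uc N) ∩ Lv h → (∀ j, j ≠ 3 → Odd (p j)) →
      Esc (Cy (Uc N) ∩ Lv h) (Box (lo3 h) (hi3 N h)) p := by
  intro p hp hn ho
  have p3 := (mem_box.1 hp).1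
  obtain ⟨q, h3, e⟩ : ∃ q : Pt, q 3 = 0 ∧ p = c3 h q := by
    refine ⟨Function.update (fun j => p j / 2) 3 0, Function.update_self .., funext fun j => ?_⟩
    by_cases e : j = 3
    · rw [e, c3_three, p3]
    · obtain ⟨m, hm⟩ := ho j e
      rw [c3_at _ _ e, Function.update_of_ne e]
      omega
  subst e
  have hq : q ∉ Uc N := fun k => hn ⟨⟨q, k, h3, (near_c3 h q).2⟩, p3⟩
  exact esc_c3 hN (out_all hN _ h3 hq) h3 hq ((c3_mem_box hN h3).1 hp)

end Vale.Agent.P215Z.Coh
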