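import Vale.Agent.P215Z.Coh.Triple

/-!
# P215, cohomology of lattice complexes: the sweep lemma
-/

noncomputable section
namespace Vale.Agent.P215Z.Coh
open MvPolynomial Fm

variable {O : Type} [CommRing O] [Algebra ℚ O] {K K' K'' L : Set Pt} {n : ℤ} {ω ω' : Form O}

namespace Sw

/-- the primitive in the direction `k` -/
def pr (k : Fin 4) (ε : Bool) (w : Ix → Py O) : Ix → Py O := fun I =>
  if k ∈ I then 0 else In k ε (sgn k (insert k I) • w (insert k I))

variable {k : Fin 4} {ε : Bool} {w : Ix → Py O} {I : Ix}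

theorem pr_mem (h : k ∈ I) : pr k ε w I = 0 := if_pos h

theorem pr_not (h : k ∉ I) : pr k ε w I = In k ε (sgn k (insert k I) • w (insert k I)) :=
  if_neg h

theorem pr_zero (h : k ∉ I → w (insert k I) = 0) : pr k ε w I = 0 := by
  by_cases hk : k ∈ I
  · exact pr_mem hk
  · rw [pr_not hk, h hk, smul_zero, map_zero]

theorem ev_pr (w : Ix → Py O) (I : Ix) : ev k ε (pr k ε w I) = 0 := by
  by_cases hk : k ∈ I
  · rw [pr_mem hk, map_zero]
  · rw [pr_not hk, ev_In]

theorem pderiv_pr {j : Fin 4} (hj : j ≠ k) (h : pderiv j (w (insert k I)) = 0) :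
    pderiv j (pr k ε w I) = 0 := by
  by_cases hk : k ∈ I
  · rw [pr_mem hk, map_zero]
  · rw [pr_not hk, pderiv_In_ne hj, map_zsmul, h, smul_zero, map_zero]

theorem ev_pr_ne {j : Fin 4} (hj : j ≠ k) {δ : Bool} {w' : Ix → Py O}
    (h : ev j δ (w (insert k I)) = w' (insert k I)) : ev j δ (pr k ε w I) = pr k ε w' I := by
  by_cases hk : k ∈ I
  · rw [pr_mem hk, pr_mem hk, map_zero]
  · rw [pr_not hk, pr_not hk, ev_In_ne hj, map_zsmul, h]

omit [Algebra ℚ O] in
theorem dc_one (h : ∀ J, k ∈ J → w J = 0) (hk : k ∈ I) :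
    dc w I = sgn k I • pderiv k (w (I.erase k)) :=
  Finset.sum_eq_single_of_mem k hk fun i _ hi => by
    rw [h _ (Finset.mem_erase.2 ⟨hi.symm, hk⟩), map_zero, smul_zero]

/-- the lemma of Poincare in one cell -/
theorem dc_pr (hw : dc w = 0) (h : ∀ I, k ∉ I → ev k ε (w I) = 0) : dc (pr k ε w) = w := by
  have h1 : ∀ J, k ∈ J → (w - dc (pr k ε w)) J = 0 := fun J hJ => by
    rw [Pi.sub_apply, dc_one (fun _ => pr_mem) hJ, pr_not (Finset.notMem_erase k J),
      Finset.insert_erase hJ, pderiv_In, smul_smul, sgn_mul_self, one_smul, sub_self]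
  refine (sub_eq_zero.1 (_root_.funext fun J => ?_)).symm
  by_cases hJ : k ∈ J
  · exact h1 J hJ
  have h2 := dc_one h1 (Finset.mem_insert_self k J)
  rw [dc_sub, dc_dc, hw, sub_zero, Finset.erase_insert hJ] at h2
  have h3 : pderiv k ((w - dc (pr k ε w)) J) = 0 := by
    have h4 := congrArg (fun x => sgn k (insert k J) • x) h2
    simpa only [smul_smul, sgn_mul_self, one_smul, Pi.zero_apply, smul_zero] using h4.symm
  rw [← ev_of_pderiv h3 ε, Pi.sub_apply, map_sub, h J hJ, ev_dc _ ε hJ]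
  simp only [ev_pr]
  exact (zero_sub _).trans (neg_eq_zero.2 (congrFun dc_zero J))

theorem odd_fc (p : Pt) (k : Fin 4) (s : Bool) : Odd (fc p k s k) ↔ ¬ Odd (p k) := by
  rw [fc_self]
  cases s <;> simp only [Int.odd_iff, if_true, if_false, Bool.false_eq_true] <;> omega

/-- one layer of new cells -/
theorem layer (hK : Closed K) (hK' : Closed K') (k : Fin 4) (s : Bool)
    (h1 : ∀ p ∈ K', p ∉ K → Odd (p k) → fc p k s ∉ K)
    (h2 : ∀ p ∈ K', p ∉ K → ¬ Odd (p k) → fc p k (!s) ∈ K')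
    (h4 : ∀ p ∈ K', p ∉ K → Odd (p k) → fc p k (!s) ∈ K) (n : ℤ) : RelEx O K K' n := by
  classical
  intro ω hω hv hd
  obtain ⟨θ, t1, t2⟩ : ∃ θ : Form O, (∀ p ∈ K', θ p = ω p) ∧ ∀ p, p ∉ K' → θ p = 0 :=
    ⟨fun p => if p ∈ K' then ω p else 0, fun p hp => if_pos hp, fun p hp => if_neg hp⟩
  have t3 : ∀ (p : Pt) (J : Ix) (T : Py O → Py O), T 0 = 0 → (p ∈ K' → T (ω p J) = 0) →
      T (θ p J) = 0 := fun p J T hT h => by
    by_cases hp : p ∈ K'
    · rw [t1 p hp, h hp]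
    · rw [t2 p hp]
      exact hT
  have back : ∀ p : Pt, fc (fc p k (!s)) k s = p := fun p => by
    have h := fc_fc_not p k (!s)
    rwa [Bool.not_not] at h
  obtain ⟨η, e1, e2⟩ : ∃ η : Form O, (∀ p, Odd (p k) → η p = pr k (!s) (θ p)) ∧
      ∀ p, ¬ Odd (p k) → ∀ I, η p I = ev k s (pr k (!s) (θ (fc p k (!s))) I) :=
    ⟨fun p => if Odd (p k) then pr k (!s) (θ p) else
      fun I => ev k s (pr k (!s) (θ (fc p k (!s))) I), fun p hp => if_pos hp,
      fun p hp I => congrFun (if_neg hp) I⟩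
  have z : ∀ (p : Pt) (I : Ix), (∀ q : Pt, (∀ j, j ≠ k → q j = p j) → k ∉ I →
      θ q (insert k I) = 0) → η p I = 0 := fun p I h => by
    by_cases hp : Odd (p k)
    · rw [e1 p hp]
      exact pr_zero (h p fun _ _ => rfl)
    · rw [e2 p hp, pr_zero (h _ fun j hj => fc_ne p hj _), map_zero]
  have hV : Van K η := fun p hp => funext fun I => by
    by_cases ho : Odd (p k)
    · rw [e1 p ho]
      exact pr_zero fun _ => t3 p _ id rfl fun _ => congrFun (hv p hp) _
    · rw [e2 p ho, pr_zero fun _ => t3 _ _ id rfl fun hq => ?_, map_zero]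
      · rfl
      · by_cases hq' : fc p k (!s) ∈ K
        · exact congrFun (hv _ hq') _
        · exact absurd (by rwa [back]) (h1 _ hq hq' ((odd_fc p k _).2 ho))
  have side : ∀ q ∈ K', ∀ (I : Ix) (j : Fin 4), j ≠ k → j ∉ I → Odd (q j) → ∀ δ,
      ev j δ (pr k (!s) (θ q) I) = pr k (!s) (θ (fc q j δ)) I := fun q hq I j hj hI ho δ =>
    ev_pr_ne hj (by
      rw [t1 q hq, t1 _ (hK' q hq j ho δ)]
      exact (hω.cmp _).face q hq j (by simp [hj, hI]) ho δ)
  have hF : IsForm (n - 1) K' η := by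
    refine ⟨fun p _ I hI => z p I fun q _ hk => t3 q _ id rfl fun hq => hω.deg q hq _ ?_,
      fun I => ⟨fun p _ i hi ho => z p I fun q h hk => t3 q _ id rfl fun hq => ?_,
        fun p _ j ho => ?_, fun p hp j hj ho δ => ?_⟩⟩
    · rw [Finset.card_insert_of_notMem hk]
      push_cast
      omega
    · refine (hω.cmp _).zero q hq i (Finset.mem_insert_of_mem hi) ?_
      rwa [h i (ne_of_mem_of_not_mem hi hk)]
    · have c : ∀ q : Pt, j ≠ k → q j = p j → pderiv j (pr k (!s) (θ q) I) = 0 := fun q hj h =>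
        pderiv_pr hj (t3 q _ (pderiv j) (map_zero _) fun hq =>
          (hω.cmp _).cst q hq j (by rwa [h]))
      change pderiv j (η p I) = 0
      by_cases hj : j = k
      · rw [e2 p (hj ▸ ho), hj, pderiv_ev_self]
      by_cases hp : Odd (p k)
      · rw [e1 p hp, c p hj rfl]
      · rw [e2 p hp, pderiv_ev_ne hj, c _ hj (fc_ne p hj _), map_zero]
    · by_cases hpK : p ∈ K
      · rw [hV p hpK, hV _ (hK p hpK j ho δ)]
        exact map_zero _
      by_cases hjk : j = k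
      · subst hjk
        by_cases hδ : δ = s
        · rw [hδ, e1 p ho, e2 _ (by rw [odd_fc, not_not]; exact ho), fc_fc_not]
        · rw [Bool.eq_not.2 hδ, e1 p ho, ev_pr, hV _ (h4 p hp hpK ho)]
          rfl
      have hk : fc p j δ k = p k := fc_ne p (Ne.symm hjk) δ
      by_cases hp' : Odd (p k)
      · rw [e1 p hp', e1 _ (by rwa [hk]), side p hp I j hjk hj ho]
      · rw [e2 p hp', e2 _ (by rwa [hk]), ev_comm hjk,
          side _ (h2 p hp hpK hp') I j hjk hj (by rwa [fc_ne p hjk]), fc_comm]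
  have odd : ∀ p ∈ K', p ∉ K → Odd (p k) → dd η p = ω p := fun p hp hpK ho => by
    change dc (η p) = ω p
    rw [e1 p ho, t1 p hp]
    refine dc_pr (hd p hp) fun I hI => ((hω.cmp I).face p hp k hI ho _).trans ?_
    exact congrFun (hv _ (h4 p hp hpK ho)) I
  refine ⟨η, hF, hV, fun p hp => ?_⟩
  by_cases hpK : p ∈ K
  · rw [hV.dd p hpK, hv p hpK]
  by_cases ho : Odd (p k)
  · exact odd p hp hpK ho
  funext I
  by_cases hI : k ∈ I
  · exact ((hF.dd.cmp I).zero p hp k hI ho).trans ((hω.cmp I).zero p hp k hI ho).symm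
  have hq := h2 p hp hpK ho
  have ho' := (odd_fc p k (!s)).2 ho
  have h5 := (hF.dd.cmp I).face _ hq k hI ho' s
  have h6 := (hω.cmp I).face _ hq k hI ho' s
  rw [back] at h5 h6
  rw [← h5, ← h6, odd _ hq (fun h => hpK (back p ▸ hK _ h k ho' s)) ho']

/-- the height -/
def ht (k : Fin 4) (s : Bool) (p : Pt) : ℤ := if s then p k else -p k

theorem ht_fc (p : Pt) (k : Fin 4) (s : Bool) :
    ht k s (fc p k s) = ht k s p + 1 ∧ ht k s (fc p k (!s)) = ht k s p - 1 := by
  cases s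
  · simp [ht, fc_self]
    omega
  · simp [ht, fc_self]

theorem ht_odd (p : Pt) (k : Fin 4) (s : Bool) : ht k s p % 2 = p k % 2 := by
  cases s <;> simp [ht]

theorem ht_abs (p : Pt) (k : Fin 4) (s : Bool) : |ht k s p| = |p k| := by
  cases s <;> simp [ht]

theorem closed_ht (hK' : Closed K') (k : Fin 4) (s : Bool) (m : ℤ) :
    Closed {p | p ∈ K' ∧ ht k s p ≤ 2 * m} := by
  rintro p ⟨hp, h⟩ j ho δ
  refine ⟨hK' p hp j ho δ, ?_⟩
  by_cases hj : j = k
  · subst hj
    have h1 := ht_fc p j s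
    have h2 := ht_odd p j s
    rw [Int.odd_iff] at ho
    by_cases hδ : δ = s
    · rw [hδ]
      omega
    · rw [Bool.eq_not.2 hδ]
      omega
  · rwa [ht, fc_ne p (Ne.symm hj)]

end Sw

open Sw in
/-- the sweep lemma: the new cells are matched by `p ↦ fc p k s` -/
theorem relEx_sweep (hK : Closed K) (hK' : Closed K') (hKK : K ⊆ K') (k : Fin 4) (s : Bool)
    (h1 : ∀ p ∈ K', p ∉ K → Odd (p k) → fc p k s ∉ K)
    (h2 : ∀ p ∈ K', p ∉ K → ¬ Odd (p k) → fc p k (!s) ∈ K')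
    (h3 : ∃ c : ℤ, ∀ p ∈ K', p ∉ K → |p k| ≤ c) (n : ℤ) : RelEx O K K' n := by
  obtain ⟨c, hc⟩ := h3
  obtain ⟨F, hF⟩ : ∃ F : ℤ → Set Pt, ∀ m, F m = K ∪ {p | p ∈ K' ∧ ht k s p ≤ 2 * m} :=
    ⟨_, fun _ => rfl⟩
  have f1 : ∀ m, Closed (F m) := fun m => hF m ▸ closed_union hK (closed_ht hK' k s m)
  have f2 : ∀ m p, p ∈ F m ↔ p ∈ K ∨ p ∈ K' ∧ ht k s p ≤ 2 * m := fun m p => by
    rw [hF]
    rfl
  have f3 : ∀ m p, p ∈ F (m + 1) → p ∉ F m →
      p ∈ K' ∧ p ∉ K ∧ 2 * m < ht k s p ∧ ht k s p ≤ 2 * (m + 1) := fun m p a b => by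
    rw [f2] at a b
    have h4 : p ∉ K := fun h => b (Or.inl h)
    have h5 := a.resolve_left h4
    exact ⟨h5.1, h4, not_le.1 fun h => b (Or.inr ⟨h5.1, h⟩), h5.2⟩
  have f4 : ∀ m, RelEx O (F m) (F (m + 1)) n := fun m => by
    refine layer (f1 m) (f1 _) k s (fun p a b ho h => ?_) (fun p a b ho => ?_)
      (fun p a b ho => ?_) n <;> obtain ⟨g1, g2, g3, g4⟩ := f3 m p a b <;>
      have g5 := ht_fc p k s
    · rcases (f2 _ _).1 h with h | h
      · exact h1 p g1 g2 ho h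
      · omega
    · exact (f2 _ _).2 (Or.inr ⟨h2 p g1 g2 ho, by omega⟩)
    · have g6 := ht_odd p k s
      have g7 := Int.odd_iff.1 ho
      exact (f2 _ _).2 (Or.inr ⟨hK' p g1 k ho _, by omega⟩)
  have hb : ∀ p ∈ K', p ∉ K → -|c| ≤ ht k s p ∧ ht k s p ≤ |c| := fun p a b =>
    abs_le.1 ((ht_abs p k s).trans_le ((hc p a b).trans (le_abs_self c)))
  have h0 := abs_nonneg c
  have f5 : ∀ t : ℕ, RelEx O K (F (-|c| - 1 + t)) n := fun t => by
    induction t with
    | zero =>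
      have h4 : F (-|c| - 1 + (0 : ℕ)) = K := Set.ext fun p => by
        rw [f2]
        refine ⟨fun h => by_contra fun b => ?_, Or.inl⟩
        have h5 := h.resolve_left b
        have h6 := hb p h5.1 b
        push_cast at h5
        omega
      rw [h4]
      exact relEx_refl K n
    | succ t ih =>
      rw [Nat.cast_succ, ← add_assoc]
      refine ih.trans (f1 _) (fun p hp => (f2 _ _).2 (Or.inl hp)) (fun p hp => ?_) (f4 _)
      rw [f2] at hp ⊢
      exact hp.imp_right fun h => ⟨h.1, by omega⟩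
  have h4 : F (-|c| - 1 + (2 * |c| + 1).toNat) = K' := Set.ext fun p => by
    rw [f2]
    refine ⟨fun h => h.elim (fun h => hKK h) And.left, fun a => ?_⟩
    by_cases b : p ∈ K
    · exact Or.inl b
    · have h6 := hb p a b
      exact Or.inr ⟨a, by omega⟩
  exact h4 ▸ f5 _

end Vale.Agent.P215Z.Coh
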