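import Vale.Agent.P215Z.Coh.Ext

/-!
# P215, cohomology of lattice complexes: triples, excision and gluing
-/

noncomputable section
namespace Vale.Agent.P215Z.Coh
open MvPolynomial Fm

variable {O : Type} [CommRing O] [Algebra ℚ O] {K K' K'' L : Set Pt} {n : ℤ} {ω ω' : Form O}

theorem IsForm.dd_pred (h : IsForm (n - 1) K ω) : IsForm n K (Coh.dd ω) := by
  have := h.dd
  rwa [sub_add_cancel] at this

theorem RelEx.trans (hK' : Closed K') (h1 : K ⊆ K') (h2 : K' ⊆ K'')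
    (h : RelEx O K K' n) (h' : RelEx O K' K'' n) : RelEx O K K'' n := by
  intro w hw hv hc
  obtain ⟨η, a1, a2, a3⟩ := h w (hw.mono h2) hv fun p hp => hc p (h2 hp)
  obtain ⟨θ, b1, b2⟩ := a1.ext hK'
  have b3 : IsForm (n - 1) K'' θ := b1.mono (Set.subset_univ _)
  obtain ⟨ζ, c1, c2, c3⟩ := h' (w - dd θ) (hw.sub b3.dd_pred)
    (fun p hp => by rw [Pi.sub_apply, b2.dd p hp, a3 p hp, sub_self])
    (fun p hp => by rw [dd_sub, dd_dd, sub_zero, hc p hp])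
  refine ⟨θ + ζ, b3.add c1, fun p hp => ?_, fun p hp => ?_⟩
  · rw [Pi.add_apply, b2 p (h1 hp), a2 p hp, c2 p (h1 hp), add_zero]
  · rw [dd_add, Pi.add_apply, c3 p hp, Pi.sub_apply, add_sub_cancel]

theorem RelEx.down (hK' : Closed K') (h1 : K ⊆ K') (h2 : K' ⊆ K'')
    (h : RelEx O K K'' n) (h' : RelEx O K' K'' (n + 1)) : RelEx O K K' n := by
  intro w hw hv hc
  obtain ⟨θ, b1, b2⟩ := hw.ext hK'
  have b3 : IsForm n K'' θ := b1.mono (Set.subset_univ _)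
  obtain ⟨ζ, c1, c2, c3⟩ := h' (dd θ) b3.dd (fun p hp => by rw [b2.dd p hp, hc p hp])
    (fun p _ => by rw [dd_dd, Pi.zero_apply])
  rw [add_sub_cancel_right] at c1
  obtain ⟨η, a1, a2, a3⟩ := h (θ - ζ) (b3.sub c1)
    (fun p hp => by rw [Pi.sub_apply, b2 p (h1 hp), hv p hp, c2 p (h1 hp), sub_self])
    (fun p hp => by rw [dd_sub, Pi.sub_apply, c3 p hp, sub_self])
  refine ⟨η, a1.mono h2, a2, fun p hp => ?_⟩
  rw [a3 p (h2 hp), Pi.sub_apply, b2 p hp, c2 p hp, sub_zero]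

theorem RelEx.up (hK' : Closed K') (h1 : K ⊆ K') (h2 : K' ⊆ K'')
    (h : RelEx O K K'' n) (h' : RelEx O K K' (n - 1)) : RelEx O K' K'' n := by
  intro w hw hv hc
  obtain ⟨η, a1, a2, a3⟩ := h w hw (fun p hp => hv p (h1 hp)) hc
  obtain ⟨ζ, c1, -, c3⟩ := h' η (a1.mono h2) a2 fun p hp => by rw [a3 p (h2 hp), hv p hp]
  obtain ⟨θ, b1, b2⟩ := c1.ext hK'
  have b3 : IsForm (n - 1 - 1) K'' θ := b1.mono (Set.subset_univ _)
  refine ⟨η - dd θ, a1.sub b3.dd_pred, fun p hp => ?_, fun p hp => ?_⟩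
  · rw [Pi.sub_apply, b2.dd p hp, c3 p hp, sub_self]
  · rw [dd_sub, dd_dd, sub_zero, a3 p hp]

theorem RelEx.excise (hK : Closed K) (hL : Closed L) (h : RelEx O K (K ∪ L) n) :
    RelEx O (K ∩ L) L n := by
  intro w hw hv hc
  obtain ⟨θ, b1, b2, b3⟩ := IsForm.glue hK hL (IsForm.zero n K) hw fun p hp => (hv p hp).symm
  obtain ⟨η, a1, a2, a3⟩ := h θ b1 b2 fun p hp => by
    rcases hp with hp | hp
    · rw [b2.dd p hp, dd_zero, Pi.zero_apply]
    · rw [b3.dd p hp, hc p hp]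
  exact ⟨η, a1.mono Set.subset_union_right, fun p hp => a2 p hp.1,
    fun p hp => (a3 p (Or.inr hp)).trans (b3 p hp)⟩

omit [Algebra ℚ O] in
theorem IsForm.of_cover (h : ∀ p ∈ K, ∃ L, p ∈ L ∧ IsForm n L ω) : IsForm n K ω := by
  refine ⟨fun p hp => ?_, fun I => ⟨fun p hp => ?_, fun p hp => ?_, fun p hp => ?_⟩⟩ <;>
    obtain ⟨L, a, b⟩ := h p hp
  · exact b.deg p a
  · exact (b.cmp I).zero p a
  · exact (b.cmp I).cst p a
  · exact (b.cmp I).face p a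

theorem RelEx.glue {ι : Type} {F : ι → Set Pt} (hK : Closed K) (hF : ∀ i, Closed (F i))
    (hd : ∀ i j, i ≠ j → F i ∩ F j ⊆ K) (h : ∀ i, RelEx O (K ∩ F i) (F i) n) :
    RelEx O K (K ∪ ⋃ i, F i) n := by
  classical
  intro w hw hv hc
  have hs : ∀ i, F i ⊆ K ∪ ⋃ i, F i := fun i p hp => Or.inr (Set.mem_iUnion.2 ⟨i, hp⟩)
  choose η a1 a2 a3 using fun i =>
    h i w (hw.mono (hs i)) (fun p hp => hv p hp.1) fun p hp => hc p (hs i hp)
  let θ : Form O := fun p => if p ∈ K then 0 else if k : ∃ i, p ∈ F i then η k.choose p else 0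
  have b1 : Agr K 0 θ := fun p hp => (if_pos hp).symm
  have b2 : ∀ i, Agr (F i) (η i) θ := fun i p hp => by
    by_cases k : p ∈ K
    · exact (a2 i p ⟨k, hp⟩).trans (b1 p k)
    · have k' : ∃ i, p ∈ F i := ⟨i, hp⟩
      have e : k'.choose = i := by
        by_contra hn
        exact k (hd _ _ hn ⟨k'.choose_spec, hp⟩)
      simp only [θ, if_neg k, dif_pos k', e]
  refine ⟨θ, IsForm.of_cover fun p hp => ?_, fun p hp => (b1 p hp).symm, fun p hp => ?_⟩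
  · rcases hp with hp | hp
    · exact ⟨K, hp, (IsForm.zero _ K).congr hK b1⟩
    · obtain ⟨i, hp⟩ := Set.mem_iUnion.1 hp
      exact ⟨F i, hp, (a1 i).congr (hF i) (b2 i)⟩
  · rcases hp with hp | hp
    · rw [← b1.dd p hp, dd_zero, hv p hp, Pi.zero_apply]
    · obtain ⟨i, hp⟩ := Set.mem_iUnion.1 hp
      rw [← (b2 i).dd p hp, a3 i p hp]

theorem RelEx.glue_one (hK : Closed K) (hL : Closed L) (h : RelEx O (K ∩ L) L n) :
    RelEx O K (K ∪ L) n := by
  have := RelEx.glue (F := fun _ : Unit => L) hK (fun _ => hL) (fun _ _ k => (k rfl).elim)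
    fun _ => h
  rwa [Set.iUnion_const] at this

end Vale.Agent.P215Z.Coh
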